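import Vale.Agent.P179.H843.AutoSep
import Vale.Agent.P179.Allb.Defs

/-!
# ALLB: modules SEPM and ENDP
-/

namespace Vale.Agent.P179.H843

open Module Vale.P179.H445 Vale.P179.Sgn Vale.P179.Allb
open scoped TensorProduct BigOperators

/-- **module SEPM** -/
theorem sepm : SEPM := by
  intro k Γ B _ _ _ _ _ _ ι ρ θ t hR hcard htc hnd htρ hZ
  obtain ⟨D', h1, h2, h3, h4, h5, h6⟩ := exists_kdata_group hR hcard t htc hnd htρ hZ
  refine ⟨D'.m, D'.s, D'.t, D'.st, ?_⟩
  have := D'.sep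
  rw [h3] at this
  exact this

/-- in the class `AX` every central element is a unit or nilpotent -/
theorem AX_zloc {k D Λ : Type} [Field k] [CommGroup D] [Ring Λ] [Algebra k Λ] {τ : MulAut D}
    {e : ℕ} (A : AX k D Λ τ e) : ZLoc Λ := fun z hz => A.loc z fun x => (hz (A.u x)).symm

/-- **module ENDP** from END1 -/
theorem endp_of (h : END1) : ENDP := by
  intro p _ k _ _ _ D _ _ _ τ e _ hT Λ _ _ A hgood Γ _ _ i g hG
  obtain ⟨ι, ρ, θ, hR, hi, hg, htρ⟩ := h p k D τ e hT Λ A hgood Γ i g hG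
  have : Fintype A.I := A.fin
  have : FiniteDimensional k Λ := Module.Finite.of_basis A.b
  have hZ : ZLoc Λ := AX_zloc A
  have hcard : (Fintype.card Γ : k) = 0 := by
    rw [← Nat.card_eq_fintype_card, hG.card, Nat.cast_mul]
    have h1 : p ∣ Nat.card D := by
      obtain ⟨n, hn⟩ := IsPGroup.iff_card.1 hT.pgr
      rw [hn]
      refine dvd_pow_self p fun h0 => ?_
      rw [h0, pow_zero] at hn
      have := Finite.one_lt_card (α := D)
      omega
    rw [(CharP.cast_eq_zero_iff k p _).2 h1, zero_mul]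
  obtain ⟨D', h1, h2, h3, h4, h5, h6⟩ :=
    exists_kdata_group hR hcard A.t A.tc A.nd htρ hZ
  refine ⟨D', h1, ?_, ?_, ?_, hZ⟩
  · intro x
    rw [h3]
    exact hi x
  · rw [h3]
    exact hg
  · intro a
    rw [h6]

end Vale.Agent.P179.H843
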