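import Vale.Agent.P179.H815.LL0
import Vale.Agent.P179.H815.Co7
import Vale.Agent.P179.H300.Ten

/-!
# REL, module A3R, application of Lemma L, part 0: `B ⊗ Bᵐᵒᵖ` and its action on `Hom_K(B, X)`
-/

namespace Vale.P179.H843.BB

open Module Vale.P179.H175 Vale.P179.H815 Vale.P179.H815.LL Vale.P179.H815.Co
open Vale.P179.H300.Ten
open scoped TensorProduct

/-- `B ⊗ Bᵐᵒᵖ` -/
abbrev Bop (K B : Type) [Field K] [Ring B] [Algebra K B] : Type := B ⊗[K] Bᵐᵒᵖ

section mk

variable {K B : Type} [Field K] [Ring B] [Algebra K B]

/-- `a ⊗ op b` -/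
def mk (K : Type) {B : Type} [Field K] [Ring B] [Algebra K B] (a b : B) : Bop K B :=
  a ⊗ₜ[K] MulOpposite.op b

theorem mk_mul (a b a' b' : B) : mk K a b * mk K a' b' = mk K (a * a') (b' * b) := by
  simp [mk, Algebra.TensorProduct.tmul_mul_tmul]

theorem mk_one : mk K (1 : B) 1 = 1 := rfl

theorem mk_add_left (a a' b : B) : mk K (a + a') b = mk K a b + mk K a' b :=
  TensorProduct.add_tmul _ _ _

theorem mk_add_right (a b b' : B) : mk K a (b + b') = mk K a b + mk K a b' := by
  simp [mk, TensorProduct.tmul_add]

theorem mk_sub_left (a a' b : B) : mk K (a - a') b = mk K a b - mk K a' b :=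
  TensorProduct.sub_tmul _ _ _

theorem mk_sub_right (a b b' : B) : mk K a (b - b') = mk K a b - mk K a b' := by
  simp [mk, TensorProduct.tmul_sub]

theorem mk_smul_left (c : K) (a b : B) : mk K (c • a) b = c • mk K a b := rfl

theorem mk_smul_right (c : K) (a b : B) : mk K a (c • b) = c • mk K a b := by
  simp [mk, TensorProduct.tmul_smul]

/-- `mk` as a bilinear map -/
def mkL (K B : Type) [Field K] [Ring B] [Algebra K B] : B →ₗ[K] B →ₗ[K] Bop K B :=
  LinearMap.mk₂ K (mk K) mk_add_left (fun c a b => mk_smul_left c a b) mk_add_right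
    (fun c a b => mk_smul_right c a b)

@[simp] theorem mkL_apply (a b : B) : mkL K B a b = mk K a b := rfl

theorem mk_induction {P : Bop K B → Prop} (h1 : ∀ a b, P (mk K a b))
    (h2 : ∀ x y, P x → P y → P (x + y)) (z : Bop K B) : P z := by
  induction z using TensorProduct.induction_on with
  | zero => have := h1 0 0; rwa [show mk K (0 : B) 0 = 0 from TensorProduct.zero_tmul _ _] at this
  | tmul a b => exact h1 a (MulOpposite.unop b)
  | add x y hx hy => exact h2 x y hx hy

theorem mk_mem {W : ℚ → Submodule K B} {r s : ℚ} {a b : B} (ha : a ∈ W r) (hb : b ∈ W s) :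
    mk K a b ∈ WTop W (r + s) := tmul_op_mem ha hb

end mk

section act

variable (K B : Type) [Field K] [Ring B] [Algebra K B] (X : Type) [AddCommGroup X] [Module K X]
  [Module B X] [IsScalarTower K B X]

/-- `Hom_K(B, X)`, a left `B`-module via `(b f) x = f (x b)` -/
abbrev HX : Type := Coind (Algebra.ofId K B) X

variable {K B X}

/-- elements of `Hom_K(B, X)` from linear maps -/
def toHX (f : B →ₗ[K] X) : HX K B X := Coind.mk' f (by
  intro c x
  rw [Algebra.ofId_apply, ← Algebra.smul_def, map_smul, algebraMap_smul])

@[simp] theorem toHX_apply (f : B →ₗ[K] X) (x : B) : toHX f x = f x := rfl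

variable (X) in
/-- the action of the left factor -/
def actL : B →ₐ[K] Module.End K (HX K B X) where
  toFun a :=
    { toFun := fun f => toHX ((DistribSMul.toLinearMap K X a) ∘ₗ Coind.coeLin f)
      map_add' := fun f g => by
        ext x
        change a • (f x + g x) = a • f x + a • g x
        rw [smul_add]
      map_smul' := fun c f => by
        ext x
        change a • c • f x = c • a • f x
        rw [smul_algebra_smul_comm] }
  map_one' := by
    ext f x
    change (1 : B) • f x = f x
    rw [one_smul]
  map_mul' a b := by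
    ext f x
    change (a * b) • f x = a • b • f x
    rw [mul_smul]
  map_zero' := by
    ext f x
    change (0 : B) • f x = 0
    rw [zero_smul]
  map_add' a b := by
    ext f x
    change (a + b) • f x = a • f x + b • f x
    rw [add_smul]
  commutes' c := by
    ext f x
    change algebraMap K B c • f x = c • f x
    rw [algebraMap_smul]

theorem actL_apply (a : B) (f : HX K B X) (x : B) : (actL X a f) x = a • f x := rfl

variable (X) in
/-- the action of the right factor -/
def actR : Bᵐᵒᵖ →ₐ[K] Module.End K (HX K B X) where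
  toFun b :=
    { toFun := fun f => toHX (Coind.coeLin f ∘ₗ LinearMap.mulLeft K b.unop)
      map_add' := fun f g => by
        ext x
        rfl
      map_smul' := fun c f => by
        ext x
        rfl }
  map_one' := by
    ext f x
    change f (1 * x) = f x
    rw [one_mul]
  map_mul' a b := by
    ext f x
    change f (b.unop * a.unop * x) = f (b.unop * (a.unop * x))
    rw [mul_assoc]
  map_zero' := by
    ext f x
    change f (0 * x) = 0
    rw [zero_mul, Coind.map_zero']
  map_add' a b := by
    ext f x
    change f ((a.unop + b.unop) * x) = f (a.unop * x) + f (b.unop * x)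
    rw [add_mul, Coind.map_add']
  commutes' c := by
    ext f x
    change f (algebraMap K B c * x) = c • f x
    rw [← Algebra.smul_def, Coind.map_smul']

theorem actR_apply (b : B) (f : HX K B X) (x : B) :
    (actR X (MulOpposite.op b) f) x = f (b * x) := rfl

theorem comm_act (a : B) (b : Bᵐᵒᵖ) : Commute (actL (K := K) X a) (actR X b) :=
  LinearMap.ext fun _ => Coind.ext fun _ => rfl

variable (X) in
/-- the action of `B ⊗ Bᵐᵒᵖ` -/
noncomputable def actB : Bop K B →ₐ[K] Module.End K (HX K B X) :=
  Algebra.TensorProduct.lift (actL X) (actR X) comm_act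

noncomputable instance instBopHX : Module (Bop K B) (HX K B X) :=
  Module.compHom _ (actB X).toRingHom

theorem actB_smul (z : Bop K B) (f : HX K B X) : z • f = actB X z f := rfl

theorem mk_smul (a b : B) (f : HX K B X) (x : B) : (mk K a b • f) x = a • f (b * x) := by
  rw [actB_smul, actB, mk, Algebra.TensorProduct.lift_tmul]
  rfl

instance : IsScalarTower K (Bop K B) (HX K B X) where
  smul_assoc c z f := by
    rw [actB_smul, actB_smul, map_smul]
    rfl

instance : SMulCommClass (Bop K B) B (HX K B X) where
  smul_comm z b f := by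
    induction z using mk_induction with
    | h1 a c =>
      ext x
      rw [mk_smul, Coind.smulB_apply, Coind.smulB_apply, mk_smul, mul_assoc]
    | h2 x y hx hy => rw [add_smul, add_smul, hx, hy, smul_add]

variable (K B X) in
/-- the corner `{f ∈ Hom_K(B, X) | f (x E) = f x} = Hom_K(B E, X)` -/
def FM (E : B) : Type := ↥(cor1 K (HX K B X) E)

namespace FM

variable {E : B}

instance : AddCommGroup (FM K B X E) := inferInstanceAs (AddCommGroup ↥(cor1 K (HX K B X) E))

instance : Module K (FM K B X E) := inferInstanceAs (Module K ↥(cor1 K (HX K B X) E))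

instance [FiniteDimensional K B] [FiniteDimensional K X] : FiniteDimensional K (FM K B X E) :=
  inferInstanceAs (FiniteDimensional K ↥(cor1 K (HX K B X) E))

variable (K B X E) in
/-- the inclusion -/
def val : FM K B X E →ₗ[K] HX K B X := (cor1 K (HX K B X) E).subtype

theorem val_inj : Function.Injective (val K B X E) := Subtype.val_injective

@[ext] theorem ext {f g : FM K B X E} (h : ∀ x, val K B X E f x = val K B X E g x) : f = g :=
  val_inj (Coind.ext h)

theorem val_mul (f : FM K B X E) (x : B) : val K B X E f (x * E) = val K B X E f x := by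
  have h : E • (f.1 : HX K B X) = f.1 := f.2
  exact congrArg (fun g : HX K B X => g x) h

/-- constructor -/
def mk' (f : HX K B X) (hf : ∀ x, f (x * E) = f x) : FM K B X E :=
  ⟨f, Coind.ext hf⟩

@[simp] theorem val_mk' (f : HX K B X) (hf : ∀ x, f (x * E) = f x) :
    val K B X E (mk' f hf) = f := rfl

noncomputable instance : SMul (Bop K B) (FM K B X E) where
  smul z f := ⟨z • f.1, by
    change E • z • f.1 = z • f.1
    rw [← smul_comm z E]
    congr 1
    exact f.2⟩

theorem val_smul (z : Bop K B) (f : FM K B X E) : val K B X E (z • f) = z • val K B X E f := rfl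

theorem mk_smul (a b : B) (f : FM K B X E) (x : B) :
    val K B X E (mk K a b • f) x = a • val K B X E f (b * x) := BB.mk_smul a b _ x

noncomputable instance : Module (Bop K B) (FM K B X E) where
  one_smul f := val_inj (one_smul _ _)
  mul_smul a b f := val_inj (mul_smul _ _ _)
  smul_zero a := val_inj (smul_zero _)
  smul_add a f g := val_inj (smul_add _ _ _)
  add_smul a b f := val_inj (add_smul _ _ _)
  zero_smul f := val_inj (by
    rw [map_zero]
    exact zero_smul (Bop K B) (val K B X E f))

instance : IsScalarTower K (Bop K B) (FM K B X E) where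
  smul_assoc _ _ _ := val_inj (smul_assoc _ _ _)

end FM

/-- the grading of `Hom_K(B, X)` -/
def VH (W : ℚ → Submodule K B) (V : ℚ → Submodule K X) (r : ℚ) : Submodule K (HX K B X) :=
  VC (Algebra.ofId K B) W V r

theorem mem_VH {W : ℚ → Submodule K B} {V : ℚ → Submodule K X} {r : ℚ} {f : HX K B X} :
    f ∈ VH W V r ↔ ∀ s, ∀ b ∈ W s, f b ∈ V (s + r) := Iff.rfl

/-- the grading of `Hom_K(B E, X)` -/
def VF (W : ℚ → Submodule K B) (V : ℚ → Submodule K X) (E : B) (r : ℚ) :
    Submodule K (FM K B X E) := (VH W V r).comap (FM.val K B X E)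

theorem mem_VF {W : ℚ → Submodule K B} {V : ℚ → Submodule K X} {E : B} {r : ℚ}
    {f : FM K B X E} : f ∈ VF W V E r ↔ ∀ s, ∀ b ∈ W s, FM.val K B X E f b ∈ V (s + r) :=
  Iff.rfl

end act

section letters

variable {K A B : Type} [Field K] [Ring A] [Algebra K A] [Ring B] [Algebra K B]

/-- the homogeneous set `Y` with `L / LJ Y = B ⊗_A B` -/
def YA (ι : A →ₐ[K] B) (WA : ℚ → Submodule K A) : Set (Bop K B) :=
  {z | ∃ r, ∃ h ∈ WA r, z = 1 + (mk K (ι h) 1 - mk K 1 (ι h))}

/-- `∑ s ⊗ r` -/
def el {m : ℕ} (s r : Fin m → B) : Bop K B := ∑ a, mk K (s a) (r a)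

end letters

end Vale.P179.H843.BB
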