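import Vale.Agent.P179.Sgn.Defs

/-!
# Separability is automatic (module E1 of ALLB)

For the letters of `KData` without the separability element: the relative Casimir element
`∑ X_l ⊗ Y_l` of the symmetric pair `A → B` has a central product `c` with `aug (ρ c) = 1`; if
every central element of `B` is a unit or nilpotent then `c` is a unit, and `X_l c⁻¹ ⊗ Y_l` is a
separability element.
-/

namespace Vale.Agent.P179.H843

open Module Vale.P179.H445 Vale.P179.Sgn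
open scoped TensorProduct BigOperators

section Casimir

variable {K B A Γ : Type} [Field K] [Ring B] [Algebra K B] [Ring A] [Algebra K A]
  [Group Γ] [Fintype Γ] {γ : Γ →* A} {ι : A →ₐ[K] B} {ρ : B →ₗ[K] A} {θ : B →ₗ[K] B}

/-- with a nondegenerate form every linear map has the shape `∑ a_m τ(c_m ·)` -/
theorem exists_shape [FiniteDimensional K B] (τ : B →ₗ[K] K)
    (nd : ∀ x, (∀ y, τ (x * y) = 0) → x = 0) (f : B →ₗ[K] B) :
    ∃ (n : ℕ) (a c : Fin n → B), ∀ b, f b = ∑ i, τ (c i * b) • a i := by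
  classical
  let v := Module.finBasis K B
  have h : ∀ i, ∃ z : B, ∀ x, (v.coord i ∘ₗ f) x = τ (z * x) := fun i =>
    exists_rep τ nd (v.coord i ∘ₗ f)
  choose c hc using h
  refine ⟨_, v, c, fun b => ?_⟩
  calc f b = ∑ i, v.repr (f b) i • v i := (v.sum_repr (f b)).symm
    _ = ∑ i, τ (c i * b) • v i := by
        refine Finset.sum_congr rfl fun i _ => ?_
        rw [← hc i b]; rfl

/-- `∑_y τ(ι(γ(y) h)) γ(y⁻¹)` is left multiplication by a fixed element. -/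
theorem theta_sum (τ : B →ₗ[K] K) (tc : ∀ a b, τ (a * b) = τ (b * a))
    (hspan : Submodule.span K (Set.range γ) = ⊤) (h : A) :
    ∑ y : Γ, τ (ι (γ y * h)) • γ y⁻¹ = (∑ y : Γ, τ (ι (γ y)) • γ y⁻¹) * h := by
  have hmem : h ∈ Submodule.span K (Set.range γ) := by rw [hspan]; trivial
  induction hmem using Submodule.span_induction with
  | mem x hx =>
    obtain ⟨g, rfl⟩ := hx
    rw [Finset.sum_mul, ← Equiv.sum_comp (Equiv.mulLeft g) fun y => (τ (ι (γ y)) • γ y⁻¹) * γ g]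
    refine Finset.sum_congr rfl fun y _ => ?_
    rw [Equiv.coe_mulLeft, smul_mul_assoc, ← map_mul γ (g * y)⁻¹ g, mul_inv_rev,
      inv_mul_cancel_right, map_mul ι, tc, ← map_mul ι, ← map_mul γ g y]
  | zero => simp
  | add x y _ _ hx hy =>
    simp only [mul_add, map_add, add_smul, Finset.sum_add_distrib, hx, hy]
  | smul a x _ hx =>
    simp only [mul_smul_comm, map_smul, smul_eq_mul, mul_smul, ← Finset.smul_sum, hx]

/-- **The relative dual basis**: there are `X_l, Y_l` with `X_0 = Y_0 = 1`, the others of the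
shape `ι γ(x) a`, `c ι γ(x⁻¹)`, and `b = ∑ X_l ι ρ(Y_l b)` for all `b`. -/
theorem exists_dual [FiniteDimensional K B] (D : Rel γ ι ρ θ)
    (hspan : Submodule.span K (Set.range γ) = ⊤) (τ : B →ₗ[K] K)
    (tc : ∀ a b, τ (a * b) = τ (b * a)) (nd : ∀ x, (∀ y, τ (x * y) = 0) → x = 0)
    (tρ : ∀ b, τ (ι (ρ b)) = τ b) :
    ∃ (n : ℕ) (a c : Fin n → B), ∀ b, b = ι (ρ b) +
      ∑ x : Γ, ∑ i, (ι (γ x) * a i) * ι (ρ ((c i * ι (γ x⁻¹)) * b)) := by
  obtain ⟨n, a, c, hθ⟩ := exists_shape τ nd θ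
  set u : A := ∑ y : Γ, τ (ι (γ y)) • γ y⁻¹ with hu
  refine ⟨n, fun i => a i * ι u, c, fun b => ?_⟩
  have h1 : ∑ x : Γ, ∑ i, (ι (γ x) * (a i * ι u)) * ι (ρ ((c i * ι (γ x⁻¹)) * b))
      = ∑ x : Γ, ∑ y : Γ, ι (γ x) * θ (ι (γ x⁻¹) * b * ι (γ y)) * ι (γ y⁻¹) := by
    refine Finset.sum_congr rfl fun x _ => ?_
    have h2 : ∀ y : Γ, ι (γ x) * θ (ι (γ x⁻¹) * b * ι (γ y)) * ι (γ y⁻¹)
        = ∑ i, (ι (γ x) * a i) * (τ (ι (γ y * ρ (c i * ι (γ x⁻¹) * b))) • ι (γ y⁻¹)) := by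
      intro y
      rw [hθ, Finset.mul_sum, Finset.sum_mul]
      refine Finset.sum_congr rfl fun i _ => ?_
      have h3 : τ (c i * (ι (γ x⁻¹) * b * ι (γ y)))
          = τ (ι (γ y * ρ (c i * ι (γ x⁻¹) * b))) := by
        rw [← D.left, tρ, ← mul_assoc, ← mul_assoc, tc]
      rw [h3, mul_smul_comm, smul_mul_assoc, mul_smul_comm]
    rw [Finset.sum_congr rfl fun y _ => h2 y, Finset.sum_comm]
    refine Finset.sum_congr rfl fun i _ => ?_
    rw [← Finset.mul_sum]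
    have h4 : ∑ y : Γ, τ (ι (γ y * ρ (c i * ι (γ x⁻¹) * b))) • ι (γ y⁻¹)
        = ι (u * ρ (c i * ι (γ x⁻¹) * b)) := by
      rw [hu, ← theta_sum τ tc hspan, map_sum]
      refine Finset.sum_congr rfl fun y _ => ?_
      rw [map_smul]
    rw [h4, map_mul ι, mul_assoc (ι (γ x)), mul_assoc (ι (γ x)), mul_assoc (a i)]
  rw [h1, D.hig]
  abel

end Casimir

section Sep

variable {K B A Γ : Type} [Field K] [Ring B] [Algebra K B] [Ring A] [Algebra K A]
  {ι : A →ₐ[K] B} {ρ : B →ₗ[K] A}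

/-- dual bases for the form `ρ (b b')`: the other side -/
theorem dual_other {L : Type} [Fintype L] (hl : ∀ h b, ρ (ι h * b) = h * ρ b)
    (hr : ∀ h b, ρ (b * ι h) = ρ b * h) (τ : B →ₗ[K] K)
    (nd : ∀ x, (∀ y, τ (x * y) = 0) → x = 0) (tρ : ∀ b, τ (ι (ρ b)) = τ b) (X Y : L → B)
    (h : ∀ b, b = ∑ l, X l * ι (ρ (Y l * b))) (b : B) : b = ∑ l, ι (ρ (b * X l)) * Y l := by
  rw [← sub_eq_zero]
  refine nd _ fun y => ?_
  have h1 : τ (b * y) = ∑ l, τ (ι (ρ (b * X l)) * Y l * y) := by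
    conv_lhs => rw [h y]
    rw [Finset.mul_sum, map_sum]
    refine Finset.sum_congr rfl fun l _ => ?_
    rw [← mul_assoc b, ← tρ, hr, ← hl, tρ, mul_assoc]
  rw [sub_mul, map_sub, h1, Finset.sum_mul, map_sum, sub_self]

/-- the relators of `B ⊗_A B` -/
def balS (ι : A →ₐ[K] B) : Submodule K (B ⊗[K] B) :=
  Submodule.span K {z : B ⊗[K] B | ∃ (x y : B) (h : A), z = (x * ι h) ⊗ₜ[K] y - x ⊗ₜ[K] (ι h * y)}

theorem balS_mul {z : B ⊗[K] B} (b : B) (hz : z ∈ balS ι) : z * (1 ⊗ₜ[K] b) ∈ balS ι := by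
  induction hz using Submodule.span_induction with
  | mem z hz =>
    obtain ⟨x, y, h, rfl⟩ := hz
    refine Submodule.subset_span ⟨x, y * b, h, ?_⟩
    rw [sub_mul, Algebra.TensorProduct.tmul_mul_tmul, Algebra.TensorProduct.tmul_mul_tmul,
      mul_one, mul_one, mul_assoc]
  | zero => rw [zero_mul]; exact Submodule.zero_mem _
  | add x y _ _ hx hy => rw [add_mul]; exact Submodule.add_mem _ hx hy
  | smul a x _ hx => rw [smul_mul_assoc]; exact Submodule.smul_mem _ _ hx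

/-- the Casimir element is `B`-central -/
theorem casimir_sep {L : Type} [Fintype L] (X Y : L → B)
    (h : ∀ b, b = ∑ l, X l * ι (ρ (Y l * b))) (h' : ∀ b, b = ∑ l, ι (ρ (b * X l)) * Y l) (b : B) :
    (∑ l, (b * X l) ⊗ₜ[K] Y l) - (∑ l, X l ⊗ₜ[K] (Y l * b)) ∈ balS ι := by
  have e1 : ∑ l, (b * X l) ⊗ₜ[K] Y l
      = ∑ m, ∑ l, (X m * ι (ρ (Y m * b * X l))) ⊗ₜ[K] Y l := by
    rw [Finset.sum_comm]
    refine Finset.sum_congr rfl fun l _ => ?_
    rw [← TensorProduct.sum_tmul]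
    congr 1
    conv_lhs => rw [h (b * X l)]
    exact Finset.sum_congr rfl fun m _ => by rw [mul_assoc]
  have e2 : ∑ m, X m ⊗ₜ[K] (Y m * b)
      = ∑ m, ∑ l, X m ⊗ₜ[K] (ι (ρ (Y m * b * X l)) * Y l) := by
    refine Finset.sum_congr rfl fun m _ => ?_
    rw [← TensorProduct.tmul_sum]
    congr 1
    exact h' (Y m * b)
  rw [e1, e2, ← Finset.sum_sub_distrib]
  refine Submodule.sum_mem _ fun m _ => ?_
  rw [← Finset.sum_sub_distrib]
  exact Submodule.sum_mem _ fun l _ => Submodule.subset_span ⟨_, _, _, rfl⟩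

/-- the product of dual bases is central -/
theorem casimir_central {L : Type} [Fintype L] (X Y : L → B)
    (h : ∀ b, b = ∑ l, X l * ι (ρ (Y l * b))) (h' : ∀ b, b = ∑ l, ι (ρ (b * X l)) * Y l) (b : B) :
    (∑ l, X l * Y l) * b = b * ∑ l, X l * Y l := by
  have e1 : b * ∑ l, X l * Y l = ∑ m, ∑ l, X m * ι (ρ (Y m * b * X l)) * Y l := by
    rw [Finset.sum_comm, Finset.mul_sum]
    refine Finset.sum_congr rfl fun l _ => ?_
    rw [← Finset.sum_mul, ← mul_assoc]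
    congr 1
    conv_lhs => rw [h (b * X l)]
    exact Finset.sum_congr rfl fun m _ => by rw [mul_assoc (Y m)]
  have e2 : (∑ l, X l * Y l) * b = ∑ m, ∑ l, X m * ι (ρ (Y m * b * X l)) * Y l := by
    rw [Finset.sum_mul]
    refine Finset.sum_congr rfl fun m _ => ?_
    rw [mul_assoc]
    conv_lhs => rw [h' (Y m * b)]
    rw [Finset.mul_sum]
    exact Finset.sum_congr rfl fun l _ => by rw [← mul_assoc]
  rw [e1, e2]

end Sep

section Main

variable {K B A Γ : Type} [Field K] [Ring B] [Algebra K B] [Ring A] [Algebra K A]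
  [Group Γ] [Fintype Γ] {γ : Γ →* A} {ι : A →ₐ[K] B} {ρ : B →ₗ[K] A} {θ : B →ₗ[K] B}

/-- **Separability is automatic.** -/
theorem autosep [FiniteDimensional K B] (D : Rel γ ι ρ θ) (aug : A →ₐ[K] K)
    (hspan : Submodule.span K (Set.range γ) = ⊤)
    (hcard : (Fintype.card Γ : K) = 0) (τ : B →ₗ[K] K)
    (tc : ∀ a b, τ (a * b) = τ (b * a)) (nd : ∀ x, (∀ y, τ (x * y) = 0) → x = 0)
    (tρ : ∀ b, τ (ι (ρ b)) = τ b) (hZ : ZLoc B) :
    ∃ (m : ℕ) (s t : Fin m → B), ∑ i, s i * t i = 1 ∧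
      ∀ b : B, (∑ i, (b * s i) ⊗ₜ[K] t i) - (∑ i, s i ⊗ₜ[K] (t i * b)) ∈
        Submodule.span K {z : B ⊗[K] B | ∃ (x y : B) (h : A),
          z = (x * ι h) ⊗ₜ[K] y - x ⊗ₜ[K] (ι h * y)} := by
  classical
  obtain ⟨n, a, c, hd⟩ := exists_dual D hspan τ tc nd tρ
  let L := Option (Γ × Fin n)
  let X : L → B := fun l => l.elim 1 fun q => ι (γ q.1) * a q.2
  let Y : L → B := fun l => l.elim 1 fun q => c q.2 * ι (γ q.1⁻¹)
  have hX : ∀ b, b = ∑ l, X l * ι (ρ (Y l * b)) := by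
    intro b
    rw [Fintype.sum_option, Fintype.sum_prod_type]
    simp only [X, Y, Option.elim, one_mul]
    exact hd b
  have hY := dual_other (K := K) D.left D.right τ nd tρ X Y hX
  set z : B := ∑ l, X l * Y l with hz
  have hcen : ∀ b, z * b = b * z := casimir_central X Y hX hY
  have haug : aug (ρ z) = 1 := by
    have e1 : ρ z = 1 + ∑ x : Γ, ∑ i, γ x * ρ (a i * c i) * γ x⁻¹ := by
      rw [hz, Fintype.sum_option, Fintype.sum_prod_type, map_add, map_sum]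
      simp only [X, Y, Option.elim, one_mul, map_sum]
      congr 1
      · rw [← map_one ι, D.ret]
      · refine Finset.sum_congr rfl fun x _ => Finset.sum_congr rfl fun i _ => ?_
        rw [← D.left, ← D.right]
        simp only [mul_assoc]
    have e2 : ∀ (x : Γ) (w : A), aug (γ x * w * γ x⁻¹) = aug w := by
      intro x w
      have h1 : aug (γ x) * aug (γ x⁻¹) = 1 := by
        rw [← map_mul, ← map_mul, mul_inv_cancel, map_one, map_one]
      rw [map_mul, map_mul, mul_right_comm, h1, one_mul]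
    rw [e1, map_add, map_one, map_sum]
    simp only [map_sum, e2]
    rw [Finset.sum_const, Finset.card_univ, nsmul_eq_mul, hcard, zero_mul, add_zero]
  have hu : IsUnit z := by
    refine (hZ z hcen).resolve_right fun hn => ?_
    rw [D.aug_eq_zero aug hcard hcen hn] at haug
    exact zero_ne_one haug
  obtain ⟨w, hw⟩ := hu
  have hwc : ∀ b, (↑w⁻¹ : B) * b = b * ↑w⁻¹ := by
    intro b
    have := hcen b
    rw [← hw] at this
    rw [Units.inv_mul_eq_iff_eq_mul, ← mul_assoc, this, mul_assoc, Units.mul_inv, mul_one]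
  let eq : L ≃ Fin (Fintype.card L) := Fintype.equivFin L
  refine ⟨Fintype.card L, fun i => X (eq.symm i) * ↑w⁻¹, fun i => Y (eq.symm i), ?_, fun b => ?_⟩
  · rw [Equiv.sum_comp eq.symm fun l => X l * ↑w⁻¹ * Y l]
    have : ∑ l, X l * ↑w⁻¹ * Y l = z * ↑w⁻¹ := by
      rw [hz, Finset.sum_mul]
      exact Finset.sum_congr rfl fun l _ => by rw [mul_assoc, hwc, mul_assoc]
    rw [this, ← hw, Units.mul_inv]
  · rw [Equiv.sum_comp eq.symm fun l => (b * (X l * ↑w⁻¹)) ⊗ₜ[K] Y l,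
      Equiv.sum_comp eq.symm fun l => (X l * ↑w⁻¹) ⊗ₜ[K] (Y l * b)]
    have h1 := casimir_sep (ι := ι) X Y hX hY (↑w⁻¹ * b)
    have h2 := balS_mul (ι := ι) b (casimir_sep (ι := ι) X Y hX hY ↑w⁻¹)
    have e3 : ∑ l, (b * (X l * ↑w⁻¹)) ⊗ₜ[K] Y l = ∑ l, ((↑w⁻¹ * b) * X l) ⊗ₜ[K] Y l :=
      Finset.sum_congr rfl fun l _ => by rw [← hwc (X l), ← mul_assoc, ← hwc b]
    have e4 : (∑ l, (↑w⁻¹ * X l) ⊗ₜ[K] Y l - ∑ l, X l ⊗ₜ[K] (Y l * ↑w⁻¹)) * (1 ⊗ₜ[K] b)
        = ∑ l, (X l * ↑w⁻¹) ⊗ₜ[K] (Y l * b) - ∑ l, X l ⊗ₜ[K] (Y l * (↑w⁻¹ * b)) := by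
      rw [sub_mul, Finset.sum_mul, Finset.sum_mul]
      congr 1
      · refine Finset.sum_congr rfl fun l _ => ?_
        rw [Algebra.TensorProduct.tmul_mul_tmul, mul_one, hwc]
      · refine Finset.sum_congr rfl fun l _ => ?_
        rw [Algebra.TensorProduct.tmul_mul_tmul, mul_one, mul_assoc]
    rw [e4] at h2
    rw [e3]
    have h3 := Submodule.sub_mem _ h1 h2
    rw [sub_sub_sub_cancel_right] at h3
    exact h3

/-- `KData` from all letters but the separability element. -/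
theorem exists_kdata [FiniteDimensional K B] (D : Rel γ ι ρ θ) (aug : A →ₐ[K] K)
    (hspan : Submodule.span K (Set.range γ) = ⊤) (haug : ∀ g, aug (γ g) = 1)
    (hnz : ∑ g, γ g ≠ 0) (hcard : (Fintype.card Γ : K) = 0) (τ : B →ₗ[K] K)
    (tc : ∀ a b, τ (a * b) = τ (b * a)) (nd : ∀ x, (∀ y, τ (x * y) = 0) → x = 0)
    (tρ : ∀ b, τ (ι (ρ b)) = τ b) (hZ : ZLoc B) :
    ∃ D' : KData K A B Γ, D'.γ = γ ∧ D'.aug = aug ∧ D'.ι = ι ∧ D'.ρ = ρ ∧ D'.θ = θ ∧
      D'.τ = τ := by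
  obtain ⟨m, s, t, h1, h2⟩ := autosep D aug hspan hcard τ tc nd tρ hZ
  exact ⟨⟨γ, aug, ι, ρ, θ, m, s, t, τ, hspan, haug, hnz, hcard, D, h1, h2, tc, nd, tρ⟩,
    rfl, rfl, rfl, rfl, rfl, rfl⟩

/-- the same for the group algebra -/
theorem exists_kdata_group [FiniteDimensional K B] {ι : MonoidAlgebra K Γ →ₐ[K] B}
    {ρ : B →ₗ[K] MonoidAlgebra K Γ} {θ : B →ₗ[K] B} (D : Rel (MonoidAlgebra.of K Γ) ι ρ θ)
    (hcard : (Fintype.card Γ : K) = 0) (τ : B →ₗ[K] K)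
    (tc : ∀ a b, τ (a * b) = τ (b * a)) (nd : ∀ x, (∀ y, τ (x * y) = 0) → x = 0)
    (tρ : ∀ b, τ (ι (ρ b)) = τ b) (hZ : ZLoc B) :
    ∃ D' : KData K (MonoidAlgebra K Γ) B Γ, D'.γ = MonoidAlgebra.of K Γ ∧
      D'.aug = MonoidAlgebra.lift K K Γ 1 ∧ D'.ι = ι ∧ D'.ρ = ρ ∧ D'.θ = θ ∧ D'.τ = τ := by
  classical
  refine exists_kdata D (MonoidAlgebra.lift K K Γ 1) ?_ ?_ ?_ hcard τ tc nd tρ hZ
  · rw [eq_top_iff]
    intro a _
    induction a using MonoidAlgebra.induction_on with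
    | of g => exact Submodule.subset_span ⟨g, rfl⟩
    | add x y hx hy => exact Submodule.add_mem _ (hx trivial) (hy trivial)
    | smul r x hx => exact Submodule.smul_mem _ _ (hx trivial)
  · intro g
    simp
  · intro h
    have h1 := congrArg (fun a => a.coeff (1 : Γ)) h
    simp [MonoidAlgebra.coeff_sum, MonoidAlgebra.of_apply, Finsupp.single_apply] at h1

end Main

end Vale.Agent.P179.H843
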