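import Vale.Agent.P179.H843.BB0

/-!
# REL, module A3R, application of Lemma L: the relative trace formula

`w : Γ →* B`, `Γ = G1 · D2` with `D2` normal, `id - ρ` a trace over `G1 × G1` of a `D2`-bilinear
map, `∑ s ⊗ r` a separability element relative to `Γ`. Then `1 - ∑ s ⊗ r` is, modulo the relations
of `Γ`, a trace over `G1` of an element which is central for `D2`.
-/

namespace Vale.P179.H843.BB

open Module Vale.P179.H175 Vale.P179.H815.LL
open scoped TensorProduct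

section tr

variable {K B Γ : Type} [Field K] [Ring B] [Algebra K B] [Group Γ] (w : Γ →* B)

/-- `x ⊗ op x⁻¹` -/
def hat (K : Type) {B Γ : Type} [Field K] [Ring B] [Algebra K B] [Group Γ] (w : Γ →* B)
    (x : Γ) : Bop K B := mk K (w x) (w x⁻¹)

theorem hat_mul (x y : Γ) : hat K w x * hat K w y = hat K w (x * y) := by
  rw [hat, hat, hat, mk_mul, ← map_mul, ← map_mul, mul_inv_rev]

theorem hat_mk (x : Γ) (a b : B) : hat K w x * mk K a b = mk K (w x * a) (b * w x⁻¹) := by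
  rw [hat, mk_mul]

theorem mk_hat (x : Γ) (a b : B) : mk K a b * hat K w x = mk K (a * w x) (w x⁻¹ * b) := by
  rw [hat, mk_mul]

variable {w}

theorem inv_mul_w (x : Γ) (b : B) : w x⁻¹ * (w x * b) = b := by
  rw [← mul_assoc, ← map_mul, inv_mul_cancel, map_one, one_mul]

theorem mul_inv_w (x : Γ) (b : B) : w x * (w x⁻¹ * b) = b := by
  rw [← mul_assoc, ← map_mul, mul_inv_cancel, map_one, one_mul]

theorem mul_w_inv (x : Γ) (b : B) : b * w x * w x⁻¹ = b := by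
  rw [mul_assoc, ← map_mul, mul_inv_cancel, map_one, mul_one]

theorem mul_inv_w' (x : Γ) (b : B) : b * w x⁻¹ * w x = b := by
  rw [mul_assoc, ← map_mul, inv_mul_cancel, map_one, mul_one]

/-- moving a group element across -/
theorem move_mem {Z : Set (Bop K B)} {x : Γ} (hx : hat K w x ∈ Z) (a b : B) :
    mk K (a * w x) b - mk K a (w x * b) ∈ LJ K Z := by
  have h := mul_sub_mem_LJ (K := K) (mk K a (w x * b)) hx
  rwa [mul_sub, mk_hat, mul_one, inv_mul_w] at h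

theorem hat_sub_mem {Z : Set (Bop K B)} {x : Γ}
    (h : ∀ a b, mk K (a * w x) b - mk K a (w x * b) ∈ LJ K Z) : hat K w x - 1 ∈ LJ K Z := by
  have := h 1 (w x⁻¹)
  rwa [one_mul, ← map_mul, mul_inv_cancel, map_one, mk_one] at this

variable (G1 D2 : Subgroup Γ) [Fintype G1] (θ : B →ₗ[K] B)

variable (w) in
/-- `Φ(b, b') = ∑ θ(b g) ⊗ g⁻¹ b'` -/
def Phi : B →ₗ[K] B →ₗ[K] Bop K B :=
  ∑ g : G1, (mkL K B).compl₁₂ (θ ∘ₗ LinearMap.mulRight K (w g)) (LinearMap.mulLeft K (w (g : Γ)⁻¹))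

variable (w) in
/-- `Ψ(b, b') = ∑ θ(b g) g⁻¹ b'` -/
def Psi : B →ₗ[K] B →ₗ[K] B :=
  ∑ g : G1, (LinearMap.mul K B).compl₁₂ (θ ∘ₗ LinearMap.mulRight K (w g))
    (LinearMap.mulLeft K (w (g : Γ)⁻¹))

theorem Phi_apply (b b' : B) :
    Phi w G1 θ b b' = ∑ g : G1, mk K (θ (b * w g)) (w (g : Γ)⁻¹ * b') := by
  simp [Phi, LinearMap.sum_apply]

theorem Psi_apply (b b' : B) :
    Psi w G1 θ b b' = ∑ g : G1, θ (b * w g) * (w (g : Γ)⁻¹ * b') := by
  simp [Psi, LinearMap.sum_apply]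

variable {G1 D2 θ}

theorem Phi_G1 {h : Γ} (hh : h ∈ G1) (b b' : B) :
    Phi w G1 θ (b * w h) b' = Phi w G1 θ b (w h * b') := by
  rw [Phi_apply, Phi_apply]
  refine Fintype.sum_equiv (Equiv.mulLeft (⟨h, hh⟩ : G1)) _ _ fun g => ?_
  change mk K (θ (b * w h * w g)) (w (g : Γ)⁻¹ * b') =
    mk K (θ (b * w (h * g))) (w (h * (g : Γ))⁻¹ * (w h * b'))
  rw [map_mul w, mul_assoc b, mul_inv_rev, map_mul w, mul_assoc (w (g : Γ)⁻¹), inv_mul_w]

theorem Psi_G1 {h : Γ} (hh : h ∈ G1) (b b' : B) :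
    Psi w G1 θ (b * w h) b' = Psi w G1 θ b (w h * b') := by
  rw [Psi_apply, Psi_apply]
  refine Fintype.sum_equiv (Equiv.mulLeft (⟨h, hh⟩ : G1)) _ _ fun g => ?_
  change (θ (b * w h * w g)) * (w (g : Γ)⁻¹ * b') =
    (θ (b * w (h * g))) * (w (h * (g : Γ))⁻¹ * (w h * b'))
  rw [map_mul w, mul_assoc b, mul_inv_rev, map_mul w, mul_assoc (w (g : Γ)⁻¹), inv_mul_w]

theorem Phi_D2 (hn : D2.Normal) (hθ : ∀ x ∈ D2, ∀ v, θ (v * w x) = θ v * w x)
    {Z : Set (Bop K B)} (hZ : ∀ x ∈ D2, hat K w x ∈ Z) {h : Γ} (hh : h ∈ D2) (b b' : B) :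
    Phi w G1 θ (b * w h) b' - Phi w G1 θ b (w h * b') ∈ LJ K Z := by
  rw [Phi_apply, Phi_apply, ← Finset.sum_sub_distrib]
  refine Submodule.sum_mem _ fun g _ => ?_
  have hu : (g : Γ)⁻¹ * h * g ∈ D2 := by
    have := hn.conj_mem h hh (g : Γ)⁻¹
    rwa [inv_inv] at this
  have h1 : b * w h * w g = b * w g * w ((g : Γ)⁻¹ * h * g) := by
    rw [map_mul, map_mul, ← mul_assoc, ← mul_assoc, mul_w_inv]
  have h2 : w (g : Γ)⁻¹ * (w h * b') = w ((g : Γ)⁻¹ * h * g) * (w (g : Γ)⁻¹ * b') := by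
    rw [map_mul, map_mul, ← mul_assoc, ← mul_assoc, mul_w_inv]
  rw [h1, hθ _ hu, h2]
  exact move_mem (hZ _ hu) _ _

theorem Psi_D2 (hn : D2.Normal) (hθ : ∀ x ∈ D2, ∀ v, θ (v * w x) = θ v * w x)
    {h : Γ} (hh : h ∈ D2) (b b' : B) :
    Psi w G1 θ (b * w h) b' = Psi w G1 θ b (w h * b') := by
  rw [Psi_apply, Psi_apply]
  refine Finset.sum_congr rfl fun g _ => ?_
  have hu : (g : Γ)⁻¹ * h * g ∈ D2 := by
    have := hn.conj_mem h hh (g : Γ)⁻¹
    rwa [inv_inv] at this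
  have h1 : b * w h * w g = b * w g * w ((g : Γ)⁻¹ * h * g) := by
    rw [map_mul, map_mul, ← mul_assoc, ← mul_assoc, mul_w_inv]
  have h2 : w (g : Γ)⁻¹ * (w h * b') = w ((g : Γ)⁻¹ * h * g) * (w (g : Γ)⁻¹ * b') := by
    rw [map_mul, map_mul, ← mul_assoc, ← mul_assoc, mul_w_inv]
  rw [h1, hθ _ hu, h2, mul_assoc]

variable (hgen : ∀ g : Γ, ∃ x ∈ G1, ∃ u ∈ D2, g = x * u)

include hgen

theorem Phi_bal (hn : D2.Normal) (hθ : ∀ x ∈ D2, ∀ v, θ (v * w x) = θ v * w x)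
    {Z : Set (Bop K B)} (hZ : ∀ x ∈ D2, hat K w x ∈ Z) (h : Γ) (b b' : B) :
    Phi w G1 θ (b * w h) b' - Phi w G1 θ b (w h * b') ∈ LJ K Z := by
  obtain ⟨x, hx, u, hu, rfl⟩ := hgen h
  rw [map_mul w, ← mul_assoc, mul_assoc (w x), ← Phi_G1 hx]
  exact Phi_D2 hn hθ hZ hu _ _

theorem Psi_bal (hn : D2.Normal) (hθ : ∀ x ∈ D2, ∀ v, θ (v * w x) = θ v * w x) (h : Γ)
    (b b' : B) : Psi w G1 θ (b * w h) b' = Psi w G1 θ b (w h * b') := by
  obtain ⟨x, hx, u, hu, rfl⟩ := hgen h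
  rw [map_mul w, ← mul_assoc, mul_assoc (w x), ← Psi_G1 hx]
  exact Psi_D2 hn hθ hu _ _

end tr

section main

variable {K B Γ : Type} [Field K] [Ring B] [Algebra K B] [Group Γ]

/-- `∑ s ⊗ r` is a separability element relative to `Γ` (in terms of balanced maps) -/
structure SepW (K : Type) {B Γ : Type} [Field K] [Ring B] [Algebra K B] [Group Γ] (w : Γ →* B)
    {m : ℕ} (s r : Fin m → B) : Prop where
  st : ∑ i, s i * r i = 1
  sep : ∀ (M : Type) [AddCommGroup M] [Module K M] (N : Submodule K M)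
    (β : B →ₗ[K] B →ₗ[K] M), (∀ x y g, β (x * w g) y - β x (w g * y) ∈ N) →
    ∀ v : B, (∑ i, β (v * s i) (r i)) - ∑ i, β (s i) (r i * v) ∈ N

variable {w : Γ →* B} {m : ℕ} {s r : Fin m → B} {G1 D2 : Subgroup Γ} [Fintype G1]
  {θ : B →ₗ[K] B}

/-- `ω = ∑ Ψ(s, r)` -/
def om (w : Γ →* B) (G1 : Subgroup Γ) [Fintype G1] (θ : B →ₗ[K] B) (s r : Fin m → B) : B :=
  ∑ i, Psi w G1 θ (s i) (r i)

/-- `η = 1 ⊗ ω - ∑ Φ(s, r)` -/
def eta (w : Γ →* B) (G1 : Subgroup Γ) [Fintype G1] (θ : B →ₗ[K] B) (s r : Fin m → B) :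
    Bop K B := mk K 1 (om w G1 θ s r) - ∑ i, Phi w G1 θ (s i) (r i)

/-- `β = ∑ x η x⁻¹` -/
def bet (w : Γ →* B) (G1 : Subgroup Γ) [Fintype G1] (θ : B →ₗ[K] B) (s r : Fin m → B) :
    Bop K B := ∑ x : G1, hat K w x * eta w G1 θ s r

variable (S : SepW K w s r) (hgen : ∀ g : Γ, ∃ x ∈ G1, ∃ u ∈ D2, g = x * u) (hn : D2.Normal)
  (θl : ∀ x ∈ D2, ∀ v, θ (w x * v) = w x * θ v)
  (θr : ∀ x ∈ D2, ∀ v, θ (v * w x) = θ v * w x)

theorem hat_Phi (x : Γ) (b b' : B) (hx : x ∈ D2)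
    (θl : ∀ x ∈ D2, ∀ v, θ (w x * v) = w x * θ v) :
    hat K w x * Phi w G1 θ b b' = Phi w G1 θ (w x * b) (b' * w x⁻¹) := by
  rw [Phi_apply, Phi_apply, Finset.mul_sum]
  refine Finset.sum_congr rfl fun g _ => ?_
  rw [hat_mk, mul_assoc (w x), θl x hx, mul_assoc]

theorem mk_Phi (a : B) (b b' : B) :
    mk K 1 a * Phi w G1 θ b b' = Phi w G1 θ b (b' * a) := by
  rw [Phi_apply, Phi_apply, Finset.mul_sum]
  refine Finset.sum_congr rfl fun g _ => ?_
  rw [mk_mul, one_mul, mul_assoc]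

theorem Psi_mul (a : B) (b b' : B) : Psi w G1 θ b b' * a = Psi w G1 θ b (b' * a) := by
  rw [Psi_apply, Psi_apply, Finset.sum_mul]
  refine Finset.sum_congr rfl fun g _ => ?_
  rw [mul_assoc, mul_assoc]

theorem mul_Psi (x : Γ) (b b' : B) (hx : x ∈ D2)
    (θl : ∀ x ∈ D2, ∀ v, θ (w x * v) = w x * θ v) :
    w x * Psi w G1 θ b b' = Psi w G1 θ (w x * b) b' := by
  rw [Psi_apply, Psi_apply, Finset.mul_sum]
  refine Finset.sum_congr rfl fun g _ => ?_
  rw [mul_assoc (w x), θl x hx, mul_assoc]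

include S hgen hn θr

/-- shifting `v` through `∑ Φ(s, r)` -/
theorem Phi_shift {Z : Set (Bop K B)} (hZ : ∀ x ∈ D2, hat K w x ∈ Z) (v a : B) :
    (∑ i, Phi w G1 θ (v * s i) (r i * a)) - ∑ i, Phi w G1 θ (s i) (r i * v * a) ∈ LJ K Z := by
  have h := S.sep (Bop K B) (LJ K Z) ((Phi w G1 θ).compl₂ (LinearMap.mulRight K a)) (by
    intro x y g
    simp only [LinearMap.compl₂_apply, LinearMap.mulRight_apply]
    rw [mul_assoc (w g)]
    exact Phi_bal hgen hn θr hZ g x (y * a)) v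
  simpa only [LinearMap.compl₂_apply, LinearMap.mulRight_apply] using h

theorem Psi_shift (v : B) :
    (∑ i, Psi w G1 θ (v * s i) (r i)) = ∑ i, Psi w G1 θ (s i) (r i * v) := by
  have h := S.sep B ⊥ (Psi w G1 θ) (by
    intro x y g
    rw [Psi_bal hgen hn θr g x y, sub_self]
    exact Submodule.zero_mem _) v
  exact sub_eq_zero.mp ((Submodule.mem_bot K).mp h)

include θl

theorem om_comm {x : Γ} (hx : x ∈ D2) : w x * om w G1 θ s r = om w G1 θ s r * w x := by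
  rw [om, Finset.mul_sum, Finset.sum_mul]
  simp_rw [mul_Psi x _ _ hx θl, Psi_mul]
  exact Psi_shift S hgen hn θr (w x)

/-- `η` is central for `D2` -/
theorem eta_mor {Z : Set (Bop K B)} (hZ : ∀ x ∈ D2, hat K w x ∈ Z) {x : Γ} (hx : x ∈ D2) :
    hat K w x * eta w G1 θ s r - eta w G1 θ s r ∈ LJ K Z := by
  have h1 : hat K w x * eta w G1 θ s r - eta w G1 θ s r =
      (mk K (w x) (om w G1 θ s r * w x⁻¹) - mk K 1 (om w G1 θ s r)) -
      ((∑ i, Phi w G1 θ (w x * s i) (r i * w x⁻¹)) - ∑ i, Phi w G1 θ (s i) (r i)) := by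
    rw [eta, mul_sub, hat_mk, mul_one, Finset.mul_sum]
    simp_rw [hat_Phi x _ _ hx θl]
    abel
  rw [h1]
  refine Submodule.sub_mem _ ?_ ?_
  · have h2 := move_mem (hZ x hx) (1 : B) (om w G1 θ s r * w x⁻¹)
    rw [one_mul, ← mul_assoc, om_comm S hgen hn θl θr hx, mul_w_inv] at h2
    exact h2
  · have h2 := Phi_shift S hgen hn θr hZ (w x) (w x⁻¹)
    simp_rw [mul_w_inv] at h2
    exact h2

/-- `β` is central for `Γ` -/
theorem bet_mor {Z : Set (Bop K B)} (hZ : ∀ x ∈ D2, hat K w x ∈ Z) (g : Γ) :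
    hat K w g * bet w G1 θ s r - bet w G1 θ s r ∈ LJ K Z := by
  have hG : ∀ x ∈ G1, hat K w x * bet w G1 θ s r = bet w G1 θ s r := by
    intro x hx
    rw [bet, Finset.mul_sum]
    refine Fintype.sum_equiv (Equiv.mulLeft (⟨x, hx⟩ : G1)) _ _ fun y => ?_
    rw [← mul_assoc, hat_mul]
    rfl
  have hD : ∀ u ∈ D2, hat K w u * bet w G1 θ s r - bet w G1 θ s r ∈ LJ K Z := by
    intro u hu
    rw [bet, Finset.mul_sum, ← Finset.sum_sub_distrib]
    refine Submodule.sum_mem _ fun y _ => ?_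
    have h1 : hat K w u * (hat K w y * eta w G1 θ s r) - hat K w y * eta w G1 θ s r =
        hat K w y * (hat K w ((y : Γ)⁻¹ * u * y) * eta w G1 θ s r - eta w G1 θ s r) := by
      rw [mul_sub, ← mul_assoc, ← mul_assoc, hat_mul, hat_mul]
      congr 3
      group
    rw [h1]
    refine mul_mem_LJ _ (eta_mor S hgen hn θl θr hZ ?_)
    have := hn.conj_mem u hu (y : Γ)⁻¹
    rwa [inv_inv] at this
  obtain ⟨x, hx, u, hu, rfl⟩ := hgen g
  rw [← hat_mul, mul_assoc]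
  have h1 : hat K w x * (hat K w u * bet w G1 θ s r) - bet w G1 θ s r =
      hat K w x * (hat K w u * bet w G1 θ s r - bet w G1 θ s r) := by
    rw [mul_sub, hG x hx]
  rw [h1]
  exact mul_mem_LJ _ (hD u hu)

omit θl in
/-- **the trace formula** -/
theorem one_sub_el {ρ : B →ₗ[K] B}
    (hig : ∀ b, ∑ x : G1, ∑ y : G1, w x * θ (w (x : Γ)⁻¹ * b * w y) * w (y : Γ)⁻¹ = b - ρ b)
    {Y : Set (Bop K B)} (hY : ∀ x, hat K w x ∈ Y) (hρY : ∀ a b b', mk K (a * ρ b) b' - mk K a (ρ b * b') ∈ LJ K Y) :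
    1 - el s r - bet w G1 θ s r ∈ LJ K Y := by
  -- `z = ∑ ρ(s) r`
  set z : B := ∑ i, ρ (s i) * r i with hz
  have hZ : ∀ x ∈ D2, hat K w x ∈ Y := fun x _ => hY x
  -- first part
  have h1 : 1 - z = ∑ x : G1, w x * (om w G1 θ s r * w (x : Γ)⁻¹) := by
    have e1 : (1 : B) - z = ∑ i, (s i - ρ (s i)) * r i := by
      rw [hz, ← S.st, ← Finset.sum_sub_distrib]
      exact Finset.sum_congr rfl fun i _ => by rw [sub_mul]
    rw [e1]
    have e2 : ∀ i, (s i - ρ (s i)) * r i = ∑ x : G1, w x * Psi w G1 θ (w (x : Γ)⁻¹ * s i) (r i) := by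
      intro i
      rw [← hig, Finset.sum_mul]
      refine Finset.sum_congr rfl fun x _ => ?_
      rw [Finset.sum_mul, Psi_apply, Finset.mul_sum]
      exact Finset.sum_congr rfl fun y _ => by rw [mul_assoc, mul_assoc]
    simp_rw [e2]
    rw [Finset.sum_comm]
    refine Finset.sum_congr rfl fun x _ => ?_
    rw [← Finset.mul_sum, Psi_shift S hgen hn θr, om, Finset.sum_mul]
    congr 1
    exact Finset.sum_congr rfl fun i _ => by rw [Psi_mul]
  -- second part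
  have h2 : el s r - mk K 1 z - ∑ x : G1, hat K w x * ∑ i, Phi w G1 θ (s i) (r i) ∈ LJ K Y := by
    have e1 : (∑ i, mk K (ρ (s i)) (r i)) - mk K 1 z ∈ LJ K Y := by
      have e0 : mk K (1 : B) z = ∑ i, mk K 1 (ρ (s i) * r i) := by
        rw [hz, ← mkL_apply, map_sum]
        rfl
      rw [e0, ← Finset.sum_sub_distrib]
      refine Submodule.sum_mem _ fun i _ => ?_
      have := hρY 1 (s i) (r i)
      rwa [one_mul] at this
    have e2 : ∀ i, mk K (s i - ρ (s i)) (r i) -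
        ∑ x : G1, mk K (w x) 1 * Phi w G1 θ (w (x : Γ)⁻¹ * s i) (r i) ∈ LJ K Y := by
      intro i
      have e3 : mk K (s i - ρ (s i)) (r i) = ∑ x : G1, ∑ y : G1,
          mk K (w x * θ (w (x : Γ)⁻¹ * s i * w y) * w (y : Γ)⁻¹) (r i) := by
        rw [← hig]
        have : ∀ b : B, mk K b (r i) = (mkL K B).flip (r i) b := fun _ => rfl
        simp only [this, map_sum]
      rw [e3, ← Finset.sum_sub_distrib]
      refine Submodule.sum_mem _ fun x _ => ?_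
      rw [Phi_apply, Finset.mul_sum, ← Finset.sum_sub_distrib]
      refine Submodule.sum_mem _ fun y _ => ?_
      rw [mk_mul, mul_one]
      exact move_mem (hY _) _ _
    have e4 : ∀ x : G1, (∑ i, mk K (w x) 1 * Phi w G1 θ (w (x : Γ)⁻¹ * s i) (r i)) -
        hat K w x * ∑ i, Phi w G1 θ (s i) (r i) ∈ LJ K Y := by
      intro x
      have e5 := Phi_shift S hgen hn θr hZ (w (x : Γ)⁻¹) 1
      simp only [mul_one] at e5
      have e6 : (∑ i, mk K (w x) 1 * Phi w G1 θ (w (x : Γ)⁻¹ * s i) (r i)) -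
          hat K w x * ∑ i, Phi w G1 θ (s i) (r i) = mk K (w x) 1 *
          ((∑ i, Phi w G1 θ (w (x : Γ)⁻¹ * s i) (r i)) -
            ∑ i, Phi w G1 θ (s i) (r i * w (x : Γ)⁻¹)) := by
        have e7 : hat K w x = mk K (w x) 1 * mk K 1 (w (x : Γ)⁻¹) := by
          rw [mk_mul, mul_one, mul_one]
          rfl
        rw [e7, mul_sub]
        simp_rw [Finset.mul_sum, mul_assoc, mk_Phi]
      rw [e6]
      exact mul_mem_LJ _ e5
    have e8 : el s r - mk K 1 z - ∑ x : G1, hat K w x * ∑ i, Phi w G1 θ (s i) (r i) =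
        ((∑ i, mk K (ρ (s i)) (r i)) - mk K 1 z) +
        (∑ i, (mk K (s i - ρ (s i)) (r i) -
          ∑ x : G1, mk K (w x) 1 * Phi w G1 θ (w (x : Γ)⁻¹ * s i) (r i))) +
        ∑ x : G1, ((∑ i, mk K (w x) 1 * Phi w G1 θ (w (x : Γ)⁻¹ * s i) (r i)) -
          hat K w x * ∑ i, Phi w G1 θ (s i) (r i)) := by
      rw [Finset.sum_sub_distrib, Finset.sum_sub_distrib, Finset.sum_comm (s := Finset.univ (α := G1))]
      simp_rw [mk_sub_left]
      rw [Finset.sum_sub_distrib, el]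
      abel
    rw [e8]
    exact Submodule.add_mem _ (Submodule.add_mem _ e1 (Submodule.sum_mem _ fun i _ => e2 i))
      (Submodule.sum_mem _ fun x _ => e4 x)
  -- third part
  have h3 : mk K 1 (1 - z) - ∑ x : G1, hat K w x * mk K 1 (om w G1 θ s r) ∈ LJ K Y := by
    rw [h1, ← mkL_apply, map_sum, ← Finset.sum_sub_distrib]
    refine Submodule.sum_mem _ fun x _ => ?_
    rw [mkL_apply, hat_mk, mul_one]
    have := move_mem (hY x) (1 : B) (om w G1 θ s r * w (x : Γ)⁻¹)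
    rw [one_mul] at this
    have := Submodule.neg_mem _ this
    rwa [neg_sub] at this
  have h4 : 1 - el s r - bet w G1 θ s r = (mk K 1 (1 - z) -
      ∑ x : G1, hat K w x * mk K 1 (om w G1 θ s r)) -
      (el s r - mk K 1 z - ∑ x : G1, hat K w x * ∑ i, Phi w G1 θ (s i) (r i)) := by
    rw [bet, mk_sub_right, mk_one]
    simp_rw [eta, mul_sub]
    rw [Finset.sum_sub_distrib]
    abel
  rw [h4]
  exact Submodule.sub_mem _ h3 h2

end main

end Vale.P179.H843.BB
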