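import Vale.Agent.P179.H843.BB8
import Vale.Agent.P179.H815.LL6
import Vale.Agent.P179.H737.P3
import Vale.Agent.P179.H737.P4
import Vale.Agent.P179.H737.Fin
import Vale.Agent.P179.H737.Corer
import Vale.Agent.P179.H300.P1
import Vale.Agent.P179.H300.P6
import Vale.Agent.P179.H300.P7
import Vale.Agent.P179.H554.A3R5

/-!
# REL: module A3R
-/

namespace Vale.P179.H843.BB

open Module Vale.P179.H175 Vale.P179.H815 Vale.P179.H815.LL Vale.P179.H300.Ten
open P179H342
open scoped TensorProduct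

section sep

variable {K A B Γ : Type} [Field K] [Ring A] [Algebra K A] [Ring B] [Algebra K B] [Group Γ]
  {γ : Γ →* A} {ι : A →ₐ[K] B} {m : ℕ} {s r : Fin m → B}

/-- The separability condition in terms of balanced maps. -/
theorem sepW_of (hspan : Submodule.span K (Set.range γ) = ⊤) (w : Γ →* B)
    (hw : ∀ g, w g = ι (γ g)) (st : ∑ i, s i * r i = 1)
    (sep : ∀ v : B, (∑ i, (v * s i) ⊗ₜ[K] r i) - (∑ i, s i ⊗ₜ[K] (r i * v)) ∈
      Submodule.span K {z : B ⊗[K] B | ∃ (x y : B) (h : A),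
        z = (x * ι h) ⊗ₜ[K] y - x ⊗ₜ[K] (ι h * y)}) : SepW K w s r where
  st := st
  sep := by
    intro M _ _ N β hβ v
    have h0 : ∀ (x y : B) (h : A), β (x * ι h) y - β x (ι h * y) ∈ N := by
      intro x y h
      have hh : h ∈ Submodule.span K (Set.range γ) := by rw [hspan]; trivial
      induction hh using Submodule.span_induction with
      | mem a ha =>
        obtain ⟨g, rfl⟩ := ha
        rw [← hw]
        exact hβ x y g
      | zero => simp
      | add a b _ _ ha hb =>
        have : β (x * ι (a + b)) y - β x (ι (a + b) * y) =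
            (β (x * ι a) y - β x (ι a * y)) + (β (x * ι b) y - β x (ι b * y)) := by
          rw [map_add, mul_add, add_mul, map_add, map_add, LinearMap.add_apply]
          abel
        rw [this]
        exact N.add_mem ha hb
      | smul c a _ ha =>
        have : β (x * ι (c • a)) y - β x (ι (c • a) * y) =
            c • (β (x * ι a) y - β x (ι a * y)) := by
          rw [map_smul, mul_smul_comm, smul_mul_assoc, map_smul, map_smul, LinearMap.smul_apply,
            smul_sub]
        rw [this]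
        exact N.smul_mem _ ha
    have h1 : ∀ z ∈ Submodule.span K {z : B ⊗[K] B | ∃ (x y : B) (h : A),
        z = (x * ι h) ⊗ₜ[K] y - x ⊗ₜ[K] (ι h * y)}, TensorProduct.lift β z ∈ N := by
      intro z hz
      induction hz using Submodule.span_induction with
      | mem z hz =>
        obtain ⟨x, y, h, rfl⟩ := hz
        rw [map_sub, TensorProduct.lift.tmul, TensorProduct.lift.tmul]
        exact h0 x y h
      | zero => rw [map_zero]; exact N.zero_mem
      | add y z _ _ hy hz => rw [map_add]; exact N.add_mem hy hz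
      | smul c z _ hz => rw [map_smul]; exact N.smul_mem _ hz
    have h2 := h1 _ (sep v)
    rw [map_sub, map_sum, map_sum] at h2
    simpa only [TensorProduct.lift.tmul] using h2

variable {WA : ℚ → Submodule K A}

/-- moving elements of `A` across -/
theorem move_YA (hA : DirectSum.IsInternal WA) (a b : B) (h : A) :
    mk K (a * ι h) b - mk K a (ι h * b) ∈ LJ K (YA ι WA) := by
  refine induction_gr hA (P := fun h => mk K (a * ι h) b - mk K a (ι h * b) ∈
    LJ K (YA ι WA)) ?_ ?_ h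
  · intro t x hx
    have h1 := mul_sub_mem_LJ (K := K) (Y := YA ι WA) (mk K a b)
      (y := 1 + (mk K (ι x) 1 - mk K 1 (ι x))) ⟨t, x, hx, rfl⟩
    rwa [add_sub_cancel_left, mul_sub, mk_mul, mk_mul, one_mul, mul_one] at h1
  · intro x y hx hy
    have : mk K (a * ι (x + y)) b - mk K a (ι (x + y) * b) =
        (mk K (a * ι x) b - mk K a (ι x * b)) + (mk K (a * ι y) b - mk K a (ι y * b)) := by
      rw [map_add, mul_add, add_mul, mk_add_left, mk_add_right]
      abel
    rw [this]
    exact Submodule.add_mem _ hx hy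

/-- `(v ⊗ 1 - 1 ⊗ v) e ∈ LJ` -/
theorem el_comm (w : Γ →* B) (S : SepW K w s r) {Y : Set (Bop K B)}
    (hY : ∀ a b g, mk K (a * w g) b - mk K a (w g * b) ∈ LJ K Y) (v : B) :
    (mk K v 1 - mk K 1 v) * el s r ∈ LJ K Y := by
  have h := S.sep (Bop K B) (LJ K Y) (mkL K B) (fun x y g => hY x y g) v
  simp only [mkL_apply] at h
  rw [sub_mul, el, Finset.mul_sum, Finset.mul_sum]
  simp_rw [mk_mul, one_mul, mul_one]
  exact h

theorem el_idem (w : Γ →* B) (S : SepW K w s r) {Y : Set (Bop K B)}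
    (hY : ∀ a b g, mk K (a * w g) b - mk K a (w g * b) ∈ LJ K Y) :
    el s r * el s r - el s r ∈ LJ K Y := by
  have h1 : el s r = ∑ i, mk K (s i) 1 * (mk K (r i) 1 * el s r) := by
    have h2 : ∀ i, mk K (s i) 1 * (mk K (r i) 1 * el s r) = mk K (s i * r i) 1 * el s r := by
      intro i
      rw [← mul_assoc, mk_mul, mul_one]
    simp_rw [h2]
    rw [← Finset.sum_mul]
    have h3 : ∑ i, mk K (s i * r i) (1 : B) = 1 := by
      have h4 : mk K (∑ i, s i * r i) (1 : B) = ∑ i, mk K (s i * r i) 1 := by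
        have h5 : ∀ b : B, mk K b (1 : B) = (mkL K B).flip 1 b := fun _ => rfl
        simp only [h5, map_sum]
      rw [← h4, S.st, mk_one]
    rw [h3, one_mul]
  have h2 : el s r * el s r = ∑ i, mk K (s i) 1 * (mk K 1 (r i) * el s r) := by
    conv_lhs => rw [el, Finset.sum_mul]
    refine Finset.sum_congr rfl fun i _ => ?_
    rw [← mul_assoc, mk_mul, mul_one, mul_one, el]
  have h3 : el s r * el s r - el s r = -∑ i, mk K (s i) 1 *
      ((mk K (r i) 1 - mk K 1 (r i)) * el s r) := by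
    conv_lhs => rw [h2, h1]
    rw [← Finset.sum_sub_distrib, ← Finset.sum_neg_distrib]
    refine Finset.sum_congr rfl fun i _ => ?_
    rw [← h1, sub_mul, mul_sub]
    abel
  rw [h3]
  refine Submodule.neg_mem _ (Submodule.sum_mem _ fun i _ => mul_mem_LJ _ ?_)
  exact el_comm w S hY (r i)

end sep

/-- **Module A3R.** -/
theorem a3r (hL : LEMMAL) : Rel.A3R := by
  intro p _ K A B A1 Γ _ _ _ _ _ _ _ _ _ _ _ _ _ _ D1 D2 t _ e M c _ hF X hZ W J n E hB hι u hu
  classical
  have _ : Fintype D1 := Fintype.ofFinite D1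
  have _ : Fintype (Subgroup.zpowers t) := Fintype.ofFinite _
  have hfd : ∀ j, FiniteDimensional K (B ⧸ QM J hB.mulL (E j)) := fun j =>
    Module.Finite.of_surjective (mkK hB.mulL (E j)) (mkK_surjective hB.mulL (E j))
  have hV : ∀ j, GrMod W (QMV hB.mulL (E j) W) := fun j =>
    grMod_QM hB.mulL (E j) hB.gr hB.hom (hB.deg j)
  have hA := X.H.basic.gr
  -- the separability element of degree `0`
  obtain ⟨m, s, r, σ, hs, hr, st, sep⟩ := H300.P6.p6 hB.gr hA.int hι X.D.s X.D.r X.D.st X.D.sep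
  let w : Γ →* B := (X.D.ι : A →* B).comp X.D.γ
  have hw : ∀ g, w g = X.D.ι (X.D.γ g) := fun _ => rfl
  have S : SepW K w s r := sepW_of X.D.span w hw st sep
  -- `Y`
  set Y : Set (Bop K B) := YA X.D.ι X.H.W with hYdef
  have hY : ∀ a b g, mk K (a * w g) b - mk K a (w g * b) ∈ LJ K Y := fun a b g =>
    move_YA hA.int a b (X.D.γ g)
  have hY1 : HomY (WTop W) Y := by
    rintro y ⟨t, h, hh, rfl⟩
    refine ⟨t, ?_⟩
    rw [add_sub_cancel_left]
    have h1 := mk_mem (hι t h hh) hB.gr.one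
    have h2 := mk_mem hB.gr.one (hι t h hh)
    rw [add_zero] at h1
    rw [zero_add] at h2
    exact Submodule.sub_mem _ h1 h2
  -- `f`
  have he0 : el s r ∈ WTop W 0 := Submodule.sum_mem _ fun i _ => by
    have := mk_mem (hs i) (hr i)
    rwa [add_neg_cancel] at this
  have hgr := grAlg_WTop hB.gr
  have hf0 : (1 - el s r : Bop K B) ∈ WTop W 0 := Submodule.sub_mem _ hgr.one he0
  have hfM : (1 - el s r : Bop K B) ∈ Mor K Y Y := by
    rintro y ⟨t, h, hh, rfl⟩
    rw [add_sub_cancel_left, mul_sub, mul_one]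
    refine Submodule.sub_mem _ ?_ (el_comm w S hY _)
    have h1 := move_YA (K := K) (ι := X.D.ι) hA.int (1 : B) 1 h
    rwa [one_mul, mul_one] at h1
  have hff : (1 - el s r : Bop K B) * (1 - el s r) - (1 - el s r) ∈ LJ K Y := by
    have h1 : (1 - el s r : Bop K B) * (1 - el s r) - (1 - el s r) =
        el s r * el s r - el s r := by
      rw [mul_sub, mul_one, sub_mul, one_mul]
      abel
    rw [h1]
    exact el_idem w S hY
  -- group theory
  have hC : (Fintype.card (Subgroup.zpowers t) : K) ≠ 0 := by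
    rw [← Nat.card_eq_fintype_card, Nat.card_zpowers, hF.ord]
    exact H737.R.card_zpowers_ne hF
  have hd : D1 ⊓ Subgroup.zpowers t = ⊥ := by
    have h1 := hF.compl.disjoint
    rw [eq_bot_iff]
    intro x hx
    exact (disjoint_iff.mp h1).le ⟨Subgroup.mem_sup_left hx.1, hx.2⟩
  have hgen : ∀ g : Γ, ∃ x ∈ D1 ⊔ Subgroup.zpowers t, ∃ u ∈ D2, g = x * u := by
    intro g
    have hn2 := hF.n2
    have h1 : g ∈ (D1 ⊔ Subgroup.zpowers t) ⊔ D2 := by
      have h2 : (D1 ⊔ D2) ⊔ Subgroup.zpowers t = ⊤ := hF.compl.sup_eq_top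
      have h3 : (D1 ⊔ Subgroup.zpowers t) ⊔ D2 = ⊤ := by
        rw [← h2, sup_right_comm]
      rw [h3]; trivial
    obtain ⟨x, hx, y, hy, h⟩ := (Subgroup.mem_sup_of_normal_right (ht := hn2)).mp h1
    exact ⟨x, hx, y, hy, h.symm⟩
  -- Higman's identity
  have R := X.D.rel
  let θ' : B →ₗ[K] B := (Fintype.card (Subgroup.zpowers t) : K)⁻¹ ^ 2 • X.D.θ
  have hig : ∀ b, ∑ x : ↥(D1 ⊔ Subgroup.zpowers t), ∑ y : ↥(D1 ⊔ Subgroup.zpowers t),
      w x * θ' (w (x : Γ)⁻¹ * b * w y) * w (y : Γ)⁻¹ =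
      b - (X.D.ι.toLinearMap ∘ₗ X.D.ρ) b :=
    H737.R.hig_sup X.D.γ X.D.ι X.D.ρ X.D.θ D1 (Subgroup.zpowers t) hF.n1 hd hC
      (fun b => R.hig b)
      (fun c hc b => X.D.θl c (Subgroup.mem_sup_right hc) b)
      (fun c hc b => X.D.θr c (Subgroup.mem_sup_right hc) b)
  have θl : ∀ x ∈ D2, ∀ v, θ' (w x * v) = w x * θ' v := by
    intro x hx v
    simp only [θ', LinearMap.smul_apply]
    rw [hw, X.D.θl x (Subgroup.mem_sup_left hx), mul_smul_comm]
  have θr : ∀ x ∈ D2, ∀ v, θ' (v * w x) = θ' v * w x := by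
    intro x hx v
    simp only [θ', LinearMap.smul_apply]
    rw [hw, X.D.θr x (Subgroup.mem_sup_left hx), smul_mul_assoc]
  -- the trace
  obtain ⟨P, T, _, _, _, _, iP, iT, d, hP, hT, hiP, hPD, -, hdW, hdu, -, hAdm⟩ :=
    H300.P7.p7 hF X hB.gr hι
  set Z : Set (Bop K B) := d.u '' ((⊤ : Subgroup P) : Set P) with hZdef
  have hdu' : ∀ x, d.u x = hat K w (iP x) := by
    intro x
    rw [hdu]
    rfl
  have hZ2 : ∀ x ∈ D2, hat K w x ∈ Z := by
    intro x hx
    obtain ⟨y, rfl⟩ := (hPD x).mpr hx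
    exact ⟨y, trivial, hdu' y⟩
  have hβ0 := bet_mor (θ := θ') S hgen hF.n2 θl θr hZ2
  set β := bet w (D1 ⊔ Subgroup.zpowers t) θ' s r with hβdef
  have hβ : β ∈ Mor K Y Z := by
    rintro y ⟨t, h, hh, rfl⟩
    rw [add_sub_cancel_left]
    let T : A →ₗ[K] Bop K B := LinearMap.mulRight K β ∘ₗ
      ((mkL K B).flip 1 - mkL K B 1) ∘ₗ X.D.ι.toLinearMap
    have key : (⊤ : Submodule K A) ≤ (LJ K Z).comap T := by
      rw [← X.D.span, Submodule.span_le]
      rintro _ ⟨g, rfl⟩
      change (mk K (w g) 1 - mk K 1 (w g)) * β ∈ LJ K Z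
      have h1 : (mk K (w g) 1 - mk K 1 (w g)) * β = mk K 1 (w g) * (hat K w g * β - β) := by
        have h2 : mk K 1 (w g) * hat K w g = mk K (w g) 1 := by
          rw [hat, mk_mul, one_mul, ← map_mul, inv_mul_cancel, map_one]
        rw [mul_sub, ← mul_assoc, h2, sub_mul]
      rw [h1]
      exact mul_mem_LJ _ (hβ0 g)
    exact key (show h ∈ (⊤ : Submodule K A) from trivial)
  have hα : (1 : Bop K B) ∈ Mor K Z Y := by
    rintro y ⟨x, -, rfl⟩
    rw [mul_one, hdu']
    exact hat_sub_mem fun a b => hY a b _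
  have hfβ : (1 - el s r) - β ∈ LJ K Y := by
    have h1 : ∀ x, hat K w x ∈ Set.range (hat K w) := fun x => ⟨x, rfl⟩
    have h2 := one_sub_el (θ := θ') (ρ := X.D.ι.toLinearMap ∘ₗ X.D.ρ) S hgen hF.n2 θr hig h1 (by
      intro a b b'
      change mk K (a * X.D.ι (X.D.ρ b)) b' - mk K a (X.D.ι (X.D.ρ b) * b') ∈ _
      generalize X.D.ρ b = h
      have hh' : h ∈ Submodule.span K (Set.range X.D.γ) := by rw [X.D.span]; trivial
      induction hh' using Submodule.span_induction with
      | mem h hh =>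
        obtain ⟨g, rfl⟩ := hh
        exact move_mem (w := w) (h1 g) a b'
      | zero => simp [mk]
      | add x y _ _ hx hy =>
        have : mk K (a * X.D.ι (x + y)) b' - mk K a (X.D.ι (x + y) * b') =
            (mk K (a * X.D.ι x) b' - mk K a (X.D.ι x * b')) +
              (mk K (a * X.D.ι y) b' - mk K a (X.D.ι y * b')) := by
          rw [map_add, mul_add, add_mul, mk_add_left, mk_add_right]
          abel
        rw [this]
        exact Submodule.add_mem _ hx hy
      | smul c x _ hx =>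
        have : mk K (a * X.D.ι (c • x)) b' - mk K a (X.D.ι (c • x) * b') =
            c • (mk K (a * X.D.ι x) b' - mk K a (X.D.ι x * b')) := by
          rw [map_smul, mul_smul_comm, smul_mul_assoc, mk_smul_left, mk_smul_right, smul_sub]
        rw [this]
        exact Submodule.smul_mem _ _ hx)
    have h3 : LJ K (Set.range (hat K w)) ≤ LJ K Y := by
      refine Submodule.span_le.mpr ?_
      rintro _ ⟨l, _, ⟨x, rfl⟩, rfl⟩
      exact mul_mem_LJ l (hat_sub_mem fun a b => hY a b x)
    exact h3 h2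
  -- Lemma L
  let F : Fin n × Fin n → Type := fun i => FM K B (B ⧸ QM J hB.mulL (E i.2)) (E i.1)
  let VV : ∀ i : Fin n × Fin n, ℚ → Submodule K (F i) := fun i =>
    VF W (QMV hB.mulL (E i.2) W) (E i.1)
  have hcT : ((Nat.card T : ℕ) : K) ≠ 0 := by
    rw [hT]
    exact H737.R.card_zpowers_ne hF
  have hPP := hL p K (Bop K B) P T hP hcT d (Fin n × Fin n) F VV
    (fun i => by
      rw [hdW]
      exact H300.P1.grMod_VF hB.gr (hV i.2) (hB.deg i.1))
    Y (by rw [hdW]; exact hY1) (1 - el s r) (by rw [hdW]; exact hf0) hfM hff 1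
    (fun _ => ⊤) (fun _ => 1) (fun _ => β)
    (fun _ => hAdm (Fin n × Fin n) (fun i => B ⧸ QM J hB.mulL (E i.2)) (fun i => E i.1)
      (fun i => hB.idem i.1))
    (fun _ => hβ) (fun _ => hα)
    (by simpa using hfβ)
  rw [hdW] at hPP
  refine H737.R.fin_A3 (cmat W E) ?_ hPP ?_
  · intro a ha haa
    choose z hz using fun j => H737.R.p3 hB X.D.τ X.D.tc X.D.nd (hV j) ha haa
    exact ⟨Matrix.of fun c j => z j c, fun m j => hz j m⟩
  · intro m j
    rw [H554.ct_u_mul X hB hι u hu m j]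
    change _ = _ + H737.R.emb (gd (VF W (QMV hB.mulL (E j) W) (E m))
      (cl K (FM K B (B ⧸ QM J hB.mulL (E j)) (E m)) Y (1 - el s r)))
    rw [H737.R.p4_cl hB.gr hA hι (hV j) hs hr st sep, gd_simpleQM hB, map_sub]
    have h1 : (1 : Matrix (Fin n) (Fin n) H737.R.RQ) m j =
        H737.R.emb (if m = j then 1 else 0) := by
      rw [Matrix.one_apply]
      split_ifs
      · rw [map_one]
      · rw [map_zero]
    rw [h1, add_sub_cancel]

/-- **Module A3R**, with Lemma L. -/
theorem a3r' : Rel.A3R := a3r lemmaL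

end Vale.P179.H843.BB
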