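import Mathlib

/-!
# The coinduced module

`B` is a `K`-algebra with an algebra map `i : K[Γ] → B`. For a left `B`-module `X` we form
`Coind X = Hom_{K[Γ]}(B, X)`, a left `B`-module via `(b • f) x = f (x * b)`. If `B` is separable over
`K[Γ]` (elements `s_i, t_i`) then `X` is a direct summand of `Coind X`, and if the complement of
`K[Γ]` in `B` is projective as a bimodule (Higman form: `θ`) the complement `Q X` of `X` in
`Coind X` is a projective `B`-module.
-/

open scoped TensorProduct

namespace Vale.Agent.P179.H843

universe u v w

section Defs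

variable {K : Type u} [Field K] {B : Type v} [Ring B] [Algebra K B] {Γ : Type w} [Group Γ]

/-- the maps `B → X` which are `K[Γ]`-linear -/
def coindSub (i : MonoidAlgebra K Γ →ₐ[K] B) (X : Type v) [AddCommGroup X] [Module K X]
    [Module B X] [IsScalarTower K B X] : Submodule K (B →ₗ[K] X) where
  carrier := {f | ∀ (h : MonoidAlgebra K Γ) (b : B), f (i h * b) = i h • f b}
  add_mem' := by
    intro f g hf hg h b
    rw [LinearMap.add_apply, LinearMap.add_apply, hf h b, hg h b, smul_add]
  zero_mem' := by
    intro h b
    simp
  smul_mem' := by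
    intro c f hf h b
    rw [LinearMap.smul_apply, LinearMap.smul_apply, hf h b, smul_comm]

/-- the coinduced module `Hom_{K[Γ]}(B, X)` -/
def Coind (i : MonoidAlgebra K Γ →ₐ[K] B) (X : Type v) [AddCommGroup X] [Module K X]
    [Module B X] [IsScalarTower K B X] : Type v := ↥(coindSub i X)

variable (i : MonoidAlgebra K Γ →ₐ[K] B) (X : Type v) [AddCommGroup X] [Module K X]
    [Module B X] [IsScalarTower K B X]

namespace Coind

instance : AddCommGroup (Coind i X) := inferInstanceAs (AddCommGroup ↥(coindSub i X))

instance : Module K (Coind i X) := inferInstanceAs (Module K ↥(coindSub i X))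

instance : FunLike (Coind i X) B X where
  coe f := f.1
  coe_injective := by
    intro f g h
    exact Subtype.ext (LinearMap.ext fun b => congrFun h b)

variable {i X}

@[ext] theorem ext {f g : Coind i X} (h : ∀ b, f b = g b) : f = g := DFunLike.ext _ _ h

@[simp] theorem add_apply (f g : Coind i X) (b : B) : (f + g) b = f b + g b := rfl

@[simp] theorem sub_apply (f g : Coind i X) (b : B) : (f - g) b = f b - g b := rfl

@[simp] theorem neg_apply (f : Coind i X) (b : B) : (-f) b = - f b := rfl

@[simp] theorem zero_apply (b : B) : (0 : Coind i X) b = 0 := rfl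

@[simp] theorem smulK_apply (c : K) (f : Coind i X) (b : B) : (c • f) b = c • f b := rfl

theorem map_add' (f : Coind i X) (a b : B) : f (a + b) = f a + f b := map_add f.1 a b

theorem map_sub' (f : Coind i X) (a b : B) : f (a - b) = f a - f b := map_sub f.1 a b

theorem map_zero' (f : Coind i X) : f 0 = 0 := map_zero f.1

theorem map_smul' (f : Coind i X) (c : K) (b : B) : f (c • b) = c • f b := map_smul f.1 c b

theorem map_sum' {ι : Type*} (s : Finset ι) (g : ι → B) (f : Coind i X) :
    f (∑ a ∈ s, g a) = ∑ a ∈ s, f (g a) := map_sum f.1 g s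

/-- the evaluation as a linear map -/
def coeLin : Coind i X →ₗ[K] (B →ₗ[K] X) := (coindSub i X).subtype

@[simp] theorem coeLin_apply (f : Coind i X) (b : B) : coeLin f b = f b := rfl

theorem sum_apply {ι : Type*} (s : Finset ι) (f : ι → Coind i X) (b : B) :
    (∑ a ∈ s, f a) b = ∑ a ∈ s, f a b := by
  classical
  induction s using Finset.induction_on with
  | empty => simp
  | insert a s ha ih => rw [Finset.sum_insert ha, Finset.sum_insert ha, add_apply, ih]

/-- equivariance -/
theorem map_i_mul (f : Coind i X) (h : MonoidAlgebra K Γ) (b : B) :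
    f (i h * b) = i h • f b := f.2 h b

/-- constructor -/
def mk' (f : B →ₗ[K] X) (hf : ∀ (h : MonoidAlgebra K Γ) (b : B), f (i h * b) = i h • f b) :
    Coind i X := ⟨f, hf⟩

@[simp] theorem mk'_apply (f : B →ₗ[K] X)
    (hf : ∀ (h : MonoidAlgebra K Γ) (b : B), f (i h * b) = i h • f b) (b : B) :
    mk' f hf b = f b := rfl

instance : SMul B (Coind i X) where
  smul b f := mk' (f.1 ∘ₗ LinearMap.mulRight K b) (by
    intro h x
    change f (i h * x * b) = i h • f (x * b)
    rw [mul_assoc, map_i_mul])

@[simp] theorem smulB_apply (b : B) (f : Coind i X) (x : B) : (b • f) x = f (x * b) := rfl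

instance : Module B (Coind i X) where
  one_smul f := by ext x; simp
  mul_smul a b f := by ext x; simp [mul_assoc]
  smul_zero a := by ext x; simp
  smul_add a f g := by ext x; simp
  add_smul a b f := by ext x; simp [mul_add, map_add']
  zero_smul f := by ext x; simp [map_zero']

instance : IsScalarTower K B (Coind i X) where
  smul_assoc c b f := by
    ext x
    simp [map_smul']

/-- the embedding `X → Coind X` -/
def j : X →ₗ[B] Coind i X where
  toFun x := mk' ((LinearMap.toSpanSingleton B X x).restrictScalars K) (by
    intro h b
    change (i h * b) • x = i h • b • x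
    rw [mul_smul])
  map_add' x y := by
    ext b
    change b • (x + y) = b • x + b • y
    rw [smul_add]
  map_smul' c x := by
    ext b
    change b • c • x = (b * c) • x
    rw [mul_smul]

@[simp] theorem j_apply (x : X) (b : B) : (j x : Coind i X) b = b • x := rfl

/-- evaluation at `1` -/
def ev : Coind i X →ₗ[K] X where
  toFun f := f 1
  map_add' _ _ := rfl
  map_smul' _ _ := rfl

@[simp] theorem ev_apply (f : Coind i X) : ev f = f 1 := rfl

theorem ev_smul (h : MonoidAlgebra K Γ) (f : Coind i X) : ev (i h • f) = i h • ev f := by
  rw [ev_apply, ev_apply, smulB_apply, one_mul, ← mul_one (i h), map_i_mul, mul_one]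

end Coind

end Defs

end Vale.Agent.P179.H843
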