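import Vale.Agent.P179.H843.Coind1

/-!
# The complement of `X` in the coinduced module is projective
-/

open scoped TensorProduct

namespace Vale.Agent.P179.H843

universe u v w

/-- The data on the inclusion `i : K[Γ] → B`: a bimodule retraction `rho`, the projectivity of its
kernel in Higman's form, and a separability element. -/
structure CData {K : Type u} [Field K] {B : Type v} [Ring B] [Algebra K B] {Γ : Type w} [Group Γ]
    [Fintype Γ] (i : MonoidAlgebra K Γ →ₐ[K] B) where
  /-- the retraction -/
  rho : B →ₗ[K] MonoidAlgebra K Γ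
  rho_i : ∀ h, rho (i h) = h
  rho_left : ∀ h b, rho (i h * b) = h * rho b
  rho_right : ∀ b h, rho (b * i h) = rho b * h
  /-- Higman's map -/
  theta : B →ₗ[K] B
  htheta : ∀ b, ∑ x : Γ, ∑ y : Γ, i (MonoidAlgebra.single x 1) *
    theta (i (MonoidAlgebra.single x⁻¹ 1) * b * i (MonoidAlgebra.single y 1)) *
      i (MonoidAlgebra.single y⁻¹ 1) = b - i (rho b)
  /-- the number of terms in the separability element -/
  n : ℕ
  /-- left parts -/
  s : Fin n → B
  /-- right parts -/
  t : Fin n → B
  hst : ∑ a, s a * t a = 1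
  hbal : ∀ (M : Type v) [AddCommGroup M] [Module K M] (β : B →ₗ[K] B →ₗ[K] M),
    (∀ (h : MonoidAlgebra K Γ) (b b' : B), β (b * i h) b' = β b (i h * b')) →
    ∀ b, ∑ a, β (b * s a) (t a) = ∑ a, β (s a) (t a * b)

section

variable {K : Type u} [Field K] {B : Type v} [Ring B] [Algebra K B] {Γ : Type w} [Group Γ]

/-- two linear maps on `K[Γ]` which agree on the group elements are equal -/
theorem malg_ext {M : Type*} [AddCommGroup M] [Module K M] {f g : MonoidAlgebra K Γ →ₗ[K] M}
    (h : ∀ x : Γ, f (MonoidAlgebra.single x 1) = g (MonoidAlgebra.single x 1)) : f = g := by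
  refine LinearMap.ext fun a => ?_
  induction a using MonoidAlgebra.induction_linear with
  | zero => simp
  | add a b ha hb => rw [map_add, map_add, ha, hb]
  | single x c =>
    have h1 : (MonoidAlgebra.single x c : MonoidAlgebra K Γ) =
        c • MonoidAlgebra.single x 1 := by
      rw [MonoidAlgebra.smul_single, smul_eq_mul, mul_one]
    rw [h1, map_smul, map_smul, h x]

/-- a group element in `B` -/
noncomputable def gr (i : MonoidAlgebra K Γ →ₐ[K] B) (x : Γ) : B := i (MonoidAlgebra.single x 1)

variable (i : MonoidAlgebra K Γ →ₐ[K] B)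

theorem gr_mul (x y : Γ) : gr i (x * y) = gr i x * gr i y := by
  unfold gr
  rw [← map_mul, MonoidAlgebra.single_mul_single, one_mul]

theorem gr_one : gr i (1 : Γ) = 1 := by
  unfold gr
  rw [← MonoidAlgebra.one_def, map_one]

theorem gr_inv_mul (x : Γ) : gr i x⁻¹ * gr i x = 1 := by
  rw [← gr_mul, inv_mul_cancel, gr_one]

theorem gr_mul_inv (x : Γ) : gr i x * gr i x⁻¹ = 1 := by
  rw [← gr_mul, mul_inv_cancel, gr_one]

variable {i} {X : Type v} [AddCommGroup X] [Module K X] [Module B X] [IsScalarTower K B X]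

theorem equivariant_of_gr {f : B →ₗ[K] X} (hf : ∀ (g : Γ) (b : B), f (gr i g * b) = gr i g • f b)
    (h : MonoidAlgebra K Γ) (b : B) : f (i h * b) = i h • f b := by
  have h1 : (f ∘ₗ LinearMap.mulRight K b) ∘ₗ i.toLinearMap =
      ((LinearMap.toSpanSingleton B X (f b)).restrictScalars K) ∘ₗ i.toLinearMap :=
    malg_ext fun g => hf g b
  exact congrArg (fun φ : MonoidAlgebra K Γ →ₗ[K] X => φ h) h1

namespace Coind

/-- constructor: equivariance for group elements is enough -/
def mkG (f : B →ₗ[K] X) (hf : ∀ (g : Γ) (b : B), f (gr i g * b) = gr i g • f b) : Coind i X :=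
  mk' f (equivariant_of_gr hf)

@[simp] theorem mkG_apply (f : B →ₗ[K] X) (hf : ∀ (g : Γ) (b : B), f (gr i g * b) = gr i g • f b)
    (b : B) : mkG f hf b = f b := rfl

theorem map_gr_mul (f : Coind i X) (g : Γ) (b : B) : f (gr i g * b) = gr i g • f b :=
  map_i_mul f _ b

end Coind

end

end Vale.Agent.P179.H843
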