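import Vale.Agent.P179.H843.Coind3

/-!
# The complement of `X` in the coinduced module is projective
-/

open scoped TensorProduct

namespace Vale.Agent.P179.H843

universe u v w

variable {K : Type u} [Field K] {B : Type v} [Ring B] [Algebra K B] {Γ : Type w} [Group Γ]
  [Fintype Γ] {i : MonoidAlgebra K Γ →ₐ[K] B} (D : CData i)
  {X : Type v} [AddCommGroup X] [Module K X] [Module B X] [IsScalarTower K B X]

namespace CData

/-- the projection on the kernel of `q` -/
noncomputable def piQ : Coind i X →ₗ[B] ↥(LinearMap.ker (D.q (X := X))) :=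
  LinearMap.codRestrict _ (LinearMap.id - Coind.j ∘ₗ D.q) (by
    intro f
    rw [LinearMap.mem_ker]
    change D.q (f - Coind.j (D.q f)) = 0
    rw [map_sub, q_j, sub_self])

theorem piQ_coe (f : Coind i X) : ((D.piQ f : Coind i X)) = f - Coind.j (D.q f) := rfl

theorem piQ_of_mem (v : ↥(LinearMap.ker (D.q (X := X)))) : D.piQ (v : Coind i X) = v := by
  apply Subtype.ext
  rw [piQ_coe, LinearMap.mem_ker.1 v.2, map_zero, sub_zero]

/-- Higman's map on the kernel of `q` -/
noncomputable def etaK : ↥(LinearMap.ker (D.q (X := X))) →ₗ[K] ↥(LinearMap.ker (D.q (X := X))) :=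
  (D.piQ.restrictScalars K) ∘ₗ D.etaQ ∘ₗ
    ((LinearMap.ker (D.q (X := X))).subtype.restrictScalars K)

theorem etaK_apply (v : ↥(LinearMap.ker (D.q (X := X)))) :
    D.etaK v = D.piQ (D.etaQ (v : Coind i X)) := rfl

theorem tr_etaK (v : ↥(LinearMap.ker (D.q (X := X)))) :
    ∑ y : Γ, gr i y • D.etaK (gr i y⁻¹ • v) = v := by
  have h1 : ∑ y : Γ, gr i y • D.etaK (gr i y⁻¹ • v) =
      D.piQ (∑ y : Γ, gr i y • D.etaQ (gr i y⁻¹ • (v : Coind i X))) := by
    rw [map_sum]
    exact Finset.sum_congr rfl fun y _ => by rw [etaK_apply, map_smul]; rfl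
  rw [h1, tr_etaQ, map_sub, piQ_of_mem]
  have h2 : D.q (v : Coind i X) = 0 := LinearMap.mem_ker.1 v.2
  rw [h2, map_zero, map_zero, sub_zero]

/-- the splitting of the free module onto the kernel of `q` -/
noncomputable def sig : ↥(LinearMap.ker (D.q (X := X))) →ₗ[B]
    (B ⊗[K] ↥(LinearMap.ker (D.q (X := X)))) where
  toFun v := ∑ a, ∑ y : Γ, (D.s a * gr i y) ⊗ₜ[K] D.etaK (gr i y⁻¹ • D.t a • v)
  map_add' v w := by
    rw [← Finset.sum_add_distrib]
    refine Finset.sum_congr rfl fun a _ => ?_
    rw [← Finset.sum_add_distrib]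
    refine Finset.sum_congr rfl fun y _ => ?_
    rw [smul_add, smul_add, map_add, TensorProduct.tmul_add]
  map_smul' b v := by
    have h := D.hbal (B ⊗[K] ↥(LinearMap.ker (D.q (X := X))))
      (∑ y : Γ, LinearMap.mk₂ K (fun r r' => (r * gr i y) ⊗ₜ[K] D.etaK (gr i y⁻¹ • r' • v))
        (fun r r' r'' => by rw [add_mul, TensorProduct.add_tmul])
        (fun c r r' => by rw [smul_mul_assoc, TensorProduct.smul_tmul'])
        (fun r r' r'' => by rw [add_smul, smul_add, map_add, TensorProduct.tmul_add])
        (fun c r r' => by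
          rw [smul_assoc, smul_comm, map_smul, TensorProduct.tmul_smul])) ?_ b
    · simp only [LinearMap.coe_sum, Finset.sum_apply, LinearMap.mk₂_apply] at h
      simp only [RingHom.id_apply]
      rw [Finset.smul_sum]
      simp only [Finset.smul_sum, TensorProduct.smul_tmul', smul_eq_mul, ← mul_assoc]
      rw [h]
      simp only [mul_smul]
    · intro h b b'
      have h1 : ((∑ y : Γ, LinearMap.mk₂ K
          (fun r r' => (r * gr i y) ⊗ₜ[K] D.etaK (gr i y⁻¹ • r' • v))
        (fun r r' r'' => by rw [add_mul, TensorProduct.add_tmul])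
        (fun c r r' => by rw [smul_mul_assoc, TensorProduct.smul_tmul'])
        (fun r r' r'' => by rw [add_smul, smul_add, map_add, TensorProduct.tmul_add])
        (fun c r r' => by
          rw [smul_assoc, smul_comm, map_smul, TensorProduct.tmul_smul])).flip b') ∘ₗ
          (LinearMap.mulLeft K b) ∘ₗ i.toLinearMap =
        ((∑ y : Γ, LinearMap.mk₂ K
          (fun r r' => (r * gr i y) ⊗ₜ[K] D.etaK (gr i y⁻¹ • r' • v))
        (fun r r' r'' => by rw [add_mul, TensorProduct.add_tmul])
        (fun c r r' => by rw [smul_mul_assoc, TensorProduct.smul_tmul'])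
        (fun r r' r'' => by rw [add_smul, smul_add, map_add, TensorProduct.tmul_add])
        (fun c r r' => by
          rw [smul_assoc, smul_comm, map_smul, TensorProduct.tmul_smul])) b) ∘ₗ
          (LinearMap.mulRight K b') ∘ₗ i.toLinearMap := by
        refine malg_ext fun g => ?_
        simp only [LinearMap.coe_sum, Finset.sum_apply, LinearMap.mk₂_apply, LinearMap.comp_apply,
          LinearMap.flip_apply, LinearMap.mulLeft_apply, LinearMap.mulRight_apply,
          AlgHom.toLinearMap_apply]
        change ∑ y : Γ, (b * gr i g * gr i y) ⊗ₜ[K] D.etaK (gr i y⁻¹ • b' • v) =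
          ∑ y : Γ, (b * gr i y) ⊗ₜ[K] D.etaK (gr i y⁻¹ • (gr i g * b') • v)
        refine Fintype.sum_bijective (fun x => g * x) (Group.mulLeft_bijective g) _ _ fun y => ?_
        rw [mul_assoc, ← gr_mul, ← mul_smul, ← mul_smul, ← mul_assoc, ← gr_mul, mul_inv_rev,
          inv_mul_cancel_right]
      exact congrArg (fun φ : MonoidAlgebra K Γ →ₗ[K] _ => φ h) h1

theorem sig_apply (v : ↥(LinearMap.ker (D.q (X := X)))) :
    D.sig v = ∑ a, ∑ y : Γ, (D.s a * gr i y) ⊗ₜ[K] D.etaK (gr i y⁻¹ • D.t a • v) := rfl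

/-- **the complement of `X` in the coinduced module is projective** -/
theorem projective_ker : Module.Projective B ↥(LinearMap.ker (D.q (X := X))) := by
  refine Module.Projective.of_split D.sig
    (TensorProduct.AlgebraTensorModule.lift
      (LinearMap.toSpanSingleton B _ (LinearMap.id (R := K)
        (M := ↥(LinearMap.ker (D.q (X := X))))))) ?_
  refine LinearMap.ext fun v => ?_
  rw [LinearMap.comp_apply, sig_apply, map_sum]
  have h1 : ∀ a, (TensorProduct.AlgebraTensorModule.lift
      (LinearMap.toSpanSingleton B _ (LinearMap.id (R := K)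
        (M := ↥(LinearMap.ker (D.q (X := X))))))) (∑ y : Γ,
        (D.s a * gr i y) ⊗ₜ[K] D.etaK (gr i y⁻¹ • D.t a • v)) =
      D.s a • D.t a • v := by
    intro a
    rw [map_sum]
    conv_rhs => rw [← D.tr_etaK (D.t a • v), Finset.smul_sum]
    refine Finset.sum_congr rfl fun y _ => ?_
    rw [TensorProduct.AlgebraTensorModule.lift_tmul, ← mul_smul (D.s a)]
    rfl
  simp only [h1]
  simp only [← mul_smul]
  rw [← Finset.sum_smul, D.hst, one_smul, LinearMap.id_apply]

end CData

end Vale.Agent.P179.H843
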