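import Vale.Agent.P179.H843.Coind4
import Vale.Agent.P179.H815.Num1

/-!
# The grading of the coinduced module
-/

open Vale.P179.H175 Vale.P179.H815 Vale.P179.H904

namespace Vale.Agent.P179.H843

universe u v w

section deg0

variable {K : Type*} [Field K] {X : Type*} [AddCommGroup X] [Module K X] {Y : Type*}
  [AddCommGroup Y] [Module K Y] {V : ℚ → Submodule K X} {V' : ℚ → Submodule K Y}

/-- the component of degree `r` of a linear map -/
noncomputable def degc [FiniteDimensional K X] (hV : DirectSum.IsInternal V)
    (V' : ℚ → Submodule K Y) (T : X →ₗ[K] Y) (r : ℚ) : X →ₗ[K] Y :=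
  ∑ s ∈ (finite_support hV.submodule_iSupIndep).toFinset, (cpt V' (s + r)) ∘ₗ T ∘ₗ (cpt V s)

theorem degc_of_mem [FiniteDimensional K X] (hV : DirectSum.IsInternal V) (T : X →ₗ[K] Y)
    (r : ℚ) {s : ℚ} {x : X} (hx : x ∈ V s) : degc hV V' T r x = cpt V' (s + r) (T x) := by
  unfold degc
  rw [LinearMap.sum_apply, Finset.sum_eq_single s]
  · rw [LinearMap.comp_apply, LinearMap.comp_apply, cpt_of_mem hV hx, if_pos rfl]
  · intro b _ hb
    rw [LinearMap.comp_apply, LinearMap.comp_apply, cpt_of_mem hV hx, if_neg (Ne.symm hb),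
      map_zero, map_zero]
  · intro h
    rw [Set.Finite.mem_toFinset, Set.mem_ofPred_eq, not_not] at h
    rw [h, Submodule.mem_bot] at hx
    simp [hx]

/-- a criterion for gradings -/
theorem isInternal_of (h1 : ∀ x, x ∈ iSup V)
    (h2 : ∀ (S : Finset ℚ) (v : ℚ → X), (∀ r ∈ S, v r ∈ V r) → ∑ r ∈ S, v r = 0 →
      ∀ r ∈ S, v r = 0) : DirectSum.IsInternal V := by
  classical
  rw [DirectSum.isInternal_submodule_iff_iSupIndep_and_iSup_eq_top]
  constructor
  · rw [iSupIndep_iff_finsetSum_eq_zero_imp_eq_zero]
    exact h2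
  · exact eq_top_iff.2 fun x _ => h1 x

theorem eq_of_homog (hV : DirectSum.IsInternal V) {f g : X →ₗ[K] Y}
    (h : ∀ s x, x ∈ V s → f x = g x) : f = g := by
  refine LinearMap.ext fun x => ?_
  refine induction_gr hV (P := fun x => f x = g x) h ?_ x
  intro x y hx hy
  rw [map_add, map_add, hx, hy]

end deg0

variable {K : Type u} [Field K] {B : Type v} [Ring B] [Algebra K B] {Γ : Type w} [Group Γ]
  {i : MonoidAlgebra K Γ →ₐ[K] B}
  {X : Type v} [AddCommGroup X] [Module K X] [Module B X] [IsScalarTower K B X]
  {W : ℚ → Submodule K B} {V : ℚ → Submodule K X} {WH : ℚ → Submodule K (MonoidAlgebra K Γ)}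

omit [IsScalarTower K B X] in
/-- multiplication by a homogeneous element shifts the components -/
theorem cpt_smul (hV : GrMod W V) {r s : ℚ} {a : B} (ha : a ∈ W r) (x : X) :
    cpt V (r + s) (a • x) = a • cpt V s x := by
  refine induction_gr hV.int (P := fun x => cpt V (r + s) (a • x) = a • cpt V s x) ?_ ?_ x
  · intro t x hx
    rw [cpt_of_mem hV.int hx, cpt_of_mem hV.int (hV.smul ha hx)]
    by_cases h : t = s
    · rw [if_pos h, if_pos (by rw [h])]
    · rw [if_neg h, if_neg (by simpa using h), smul_zero]
  · intro x y hx hy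
    rw [smul_add, map_add, hx, hy, map_add, smul_add]

/-- the grading of the coinduced module -/
def VC (i : MonoidAlgebra K Γ →ₐ[K] B) (W : ℚ → Submodule K B) (V : ℚ → Submodule K X) (r : ℚ) :
    Submodule K (Coind i X) where
  carrier := {f | ∀ s, ∀ b ∈ W s, f b ∈ V (s + r)}
  add_mem' := fun hf hg s b hb => (V (s + r)).add_mem (hf s b hb) (hg s b hb)
  zero_mem' := fun s _ _ => (V (s + r)).zero_mem
  smul_mem' := fun c _ hf s b hb => (V (s + r)).smul_mem c (hf s b hb)

theorem mem_VC {r : ℚ} {f : Coind i X} : f ∈ VC i W V r ↔ ∀ s, ∀ b ∈ W s, f b ∈ V (s + r) :=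
  Iff.rfl

/-- homogeneous components of an element of the coinduced module -/
noncomputable def compC [FiniteDimensional K B] (hW : GrAlg W) (hV : GrMod W V)
    (hWH : DirectSum.IsInternal WH) (hi : ∀ r h, h ∈ WH r → i h ∈ W r) (r : ℚ)
    (f : Coind i X) : Coind i X :=
  Coind.mk' (degc hW.int V (Coind.coeLin f) r) (by
    intro h b
    -- first homogeneous `h`
    refine induction_gr hWH (P := fun h => degc hW.int V (Coind.coeLin f) r (i h * b) =
      i h • degc hW.int V (Coind.coeLin f) r b) ?_ ?_ h
    · intro w h hh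
      refine induction_gr hW.int (P := fun b => degc hW.int V (Coind.coeLin f) r (i h * b) =
        i h • degc hW.int V (Coind.coeLin f) r b) ?_ ?_ b
      · intro s b hb
        rw [degc_of_mem hW.int _ r hb, degc_of_mem hW.int _ r (hW.mul (hi w h hh) hb),
          Coind.coeLin_apply, Coind.map_i_mul, add_assoc, cpt_smul hV (hi w h hh),
          Coind.coeLin_apply]
      · intro b c hb hc
        rw [mul_add, map_add, hb, hc, map_add, smul_add]
    · intro h h' hh hh'
      rw [map_add, add_mul, map_add, hh, hh', add_smul])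

theorem compC_apply_of_mem [FiniteDimensional K B] (hW : GrAlg W) (hV : GrMod W V)
    (hWH : DirectSum.IsInternal WH) (hi : ∀ r h, h ∈ WH r → i h ∈ W r) (r : ℚ)
    (f : Coind i X) {s : ℚ} {b : B} (hb : b ∈ W s) :
    compC hW hV hWH hi r f b = cpt V (s + r) (f b) := by
  change degc hW.int V (Coind.coeLin f) r b = _
  rw [degc_of_mem hW.int _ r hb, Coind.coeLin_apply]

theorem compC_mem [FiniteDimensional K B] (hW : GrAlg W) (hV : GrMod W V)
    (hWH : DirectSum.IsInternal WH) (hi : ∀ r h, h ∈ WH r → i h ∈ W r) (r : ℚ)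
    (f : Coind i X) : compC hW hV hWH hi r f ∈ VC i W V r := by
  intro s b hb
  rw [compC_apply_of_mem hW hV hWH hi r f hb]
  exact cpt_mem hV.int _ _

/-- equality of elements of the coinduced module can be tested on homogeneous elements -/
theorem Coind.ext_homog (hW : GrAlg W) {f g : Coind i X}
    (h : ∀ s b, b ∈ W s → f b = g b) : f = g := by
  ext b
  have h1 : (Coind.coeLin f : B →ₗ[K] X) = Coind.coeLin g := eq_of_homog hW.int h
  exact congrArg (fun φ : B →ₗ[K] X => φ b) h1

theorem grMod_VC [FiniteDimensional K B] [FiniteDimensional K X] (hW : GrAlg W) (hV : GrMod W V)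
    (hWH : DirectSum.IsInternal WH) (hi : ∀ r h, h ∈ WH r → i h ∈ W r) :
    GrMod W (VC i W V) where
  int := by
    classical
    refine isInternal_of ?_ ?_
    · intro f
      set SB := (finite_support hW.int.submodule_iSupIndep).toFinset with hSB
      set SX := (finite_support hV.int.submodule_iSupIndep).toFinset with hSX
      have h1 : f = ∑ r ∈ (SX ×ˢ SB).image (fun p => p.1 - p.2), compC hW hV hWH hi r f := by
        refine Coind.ext_homog hW fun s b hb => ?_
        rw [Coind.sum_apply]
        by_cases hs : s ∈ SB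
        · have h2 : f b = ∑ᶠ r, cpt V (s + r) (f b) := by
            conv_lhs => rw [← sum_cpt hV.int (f b)]
            exact (finsum_comp_equiv (Equiv.addLeft s) (f := fun t => cpt V t (f b))).symm
          rw [h2, finsum_eq_sum_of_support_subset (s := (SX ×ˢ SB).image (fun p => p.1 - p.2))]
          · refine Finset.sum_congr rfl fun r _ => ?_
            rw [compC_apply_of_mem hW hV hWH hi r f hb]
          · intro r hr
            rw [Function.mem_support] at hr
            rw [Finset.mem_coe, Finset.mem_image]
            refine ⟨(s + r, s), ?_, by simp⟩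
            rw [Finset.mem_product]
            refine ⟨?_, hs⟩
            rw [hSX, Set.Finite.mem_toFinset, Set.mem_ofPred_eq]
            intro h
            apply hr
            have h3 := cpt_mem hV.int (s + r) (f b)
            rw [h, Submodule.mem_bot] at h3
            exact h3
        · rw [hSB, Set.Finite.mem_toFinset, Set.mem_ofPred_eq, not_not] at hs
          rw [hs, Submodule.mem_bot] at hb
          rw [hb, Coind.map_zero']
          exact (Finset.sum_eq_zero fun r _ => Coind.map_zero' _).symm
      rw [h1]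
      exact Submodule.sum_mem _ fun r _ =>
        Submodule.mem_iSup_of_mem r (compC_mem hW hV hWH hi r f)
    · intro S g hg hsum r hr
      refine Coind.ext_homog hW fun s b hb => ?_
      rw [Coind.zero_apply]
      have h1 : ∑ t ∈ S, g t b = 0 := by
        rw [← Coind.sum_apply, hsum, Coind.zero_apply]
      have h2 := congrArg (cpt V (s + r)) h1
      rw [map_sum, map_zero, Finset.sum_eq_single r] at h2
      · rw [cpt_of_mem hV.int (hg r hr s b hb), if_pos rfl] at h2
        exact h2
      · intro t ht htr
        rw [cpt_of_mem hV.int (hg t ht s b hb), if_neg (by simpa using htr)]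
      · exact fun h => absurd hr h
  smul := by
    intro r s a f ha hf t b hb
    rw [Coind.smulB_apply, ← add_assoc]
    exact hf _ _ (hW.mul hb ha)

end Vale.Agent.P179.H843
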