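import Vale.Agent.P179.H843.Coind6

/-!
# The graded dimension of `e (Coind X)` from a homogeneous basis of `B e` over `K[Γ]`
-/

open Vale.P179.H175 Vale.P179.H815 Vale.P179.H904 Module

namespace Vale.Agent.P179.H843

universe u v w

variable {K : Type u} [Field K] {B : Type v} [Ring B] [Algebra K B] {Γ : Type w} [Group Γ]
  {i : MonoidAlgebra K Γ →ₐ[K] B}
  {X : Type v} [AddCommGroup X] [Module K X] [Module B X] [IsScalarTower K B X]
  {W : ℚ → Submodule K B} {V : ℚ → Submodule K X} {WH : ℚ → Submodule K (MonoidAlgebra K Γ)}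

/-- a homogeneous family `x t` which is a basis of `B e` over `H = K[Γ]`, `H x_t = H a_t` -/
structure HFam (i : MonoidAlgebra K Γ →ₐ[K] B) (W : ℚ → Submodule K B) (e : B) {τ : Type*}
    [Fintype τ] (x : τ → B) (r : τ → ℚ) (a : τ → MonoidAlgebra K Γ) : Prop where
  xe : ∀ t, x t * e = x t
  ax : ∀ t, i (a t) * x t = x t
  deg : ∀ t, x t ∈ W (r t)
  span : ∀ b : B, b * e = b → ∃ h : τ → MonoidAlgebra K Γ, (∀ t, h t * a t = h t) ∧
    b = ∑ t, i (h t) * x t
  inj : ∀ h : τ → MonoidAlgebra K Γ, (∀ t, h t * a t = h t) → ∑ t, i (h t) * x t = 0 → h = 0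

variable {e : B} {τ : Type*} [Fintype τ] {x : τ → B} {r : τ → ℚ} {a : τ → MonoidAlgebra K Γ}

theorem cpt_mul_right {A : Type*} [Ring A] [Algebra K A] {U : ℚ → Submodule K A} (hU : GrAlg U)
    {s : ℚ} {y : A} (hy : y ∈ U s) (q : ℚ) (z : A) : cpt U (q + s) (z * y) = cpt U q z * y := by
  refine induction_gr hU.int (P := fun z => cpt U (q + s) (z * y) = cpt U q z * y) ?_ ?_ z
  · intro t z hz
    rw [cpt_of_mem hU.int hz, cpt_of_mem hU.int (hU.mul hz hy)]
    by_cases h : t = q
    · rw [if_pos h, if_pos (by rw [h])]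
    · rw [if_neg h, if_neg (by simpa using h), zero_mul]
  · intro z z' hz hz'
    rw [add_mul, map_add, hz, hz', map_add, add_mul]

namespace HFam

variable (h : HFam i W e x r a)

include h in
theorem unique {h1 h2 : τ → MonoidAlgebra K Γ} (e1 : ∀ t, h1 t * a t = h1 t)
    (e2 : ∀ t, h2 t * a t = h2 t) (e3 : ∑ t, i (h1 t) * x t = ∑ t, i (h2 t) * x t) : h1 = h2 := by
  have h3 := h.inj (h1 - h2) (fun t => by rw [Pi.sub_apply, sub_mul, e1, e2]) (by
    simp only [Pi.sub_apply, map_sub, sub_mul, Finset.sum_sub_distrib]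
    rw [e3, sub_self])
  exact sub_eq_zero.1 h3

/-- the coordinates of `b e` -/
noncomputable def co (hee : e * e = e) (b : B) : τ → MonoidAlgebra K Γ :=
  (h.span (b * e) (by rw [mul_assoc, hee])).choose

variable (hee : e * e = e)

theorem co_a (b : B) (t : τ) : h.co hee b t * a t = h.co hee b t :=
  (h.span (b * e) (by rw [mul_assoc, hee])).choose_spec.1 t

theorem co_sum (b : B) : b * e = ∑ t, i (h.co hee b t) * x t :=
  (h.span (b * e) (by rw [mul_assoc, hee])).choose_spec.2

theorem co_add (b c : B) : h.co hee (b + c) = h.co hee b + h.co hee c := by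
  refine h.unique (h.co_a hee _) (fun t => ?_) ?_
  · rw [Pi.add_apply, add_mul, h.co_a, h.co_a]
  · rw [← h.co_sum, add_mul, h.co_sum hee b, h.co_sum hee c, ← Finset.sum_add_distrib]
    exact Finset.sum_congr rfl fun t _ => by rw [Pi.add_apply, map_add, add_mul]

theorem co_mul (g : MonoidAlgebra K Γ) (b : B) (t : τ) :
    h.co hee (i g * b) t = g * h.co hee b t := by
  have h1 : h.co hee (i g * b) = fun t => g * h.co hee b t := by
    refine h.unique (h.co_a hee _) (fun t => ?_) ?_
    · rw [mul_assoc, h.co_a]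
    · rw [← h.co_sum, mul_assoc, h.co_sum hee b, Finset.mul_sum]
      exact Finset.sum_congr rfl fun t _ => by rw [map_mul, mul_assoc]
  rw [h1]

theorem co_smul (c : K) (b : B) : h.co hee (c • b) = c • h.co hee b := by
  refine h.unique (h.co_a hee _) (fun t => ?_) ?_
  · rw [Pi.smul_apply, smul_mul_assoc, h.co_a]
  · rw [← h.co_sum, smul_mul_assoc, h.co_sum hee b, Finset.smul_sum]
    exact Finset.sum_congr rfl fun t _ => by rw [Pi.smul_apply, map_smul, smul_mul_assoc]

theorem co_e (b : B) : h.co hee (b * e) = h.co hee b := by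
  refine h.unique (h.co_a hee _) (h.co_a hee _) ?_
  rw [← h.co_sum, ← h.co_sum, mul_assoc, hee]

theorem co_x [DecidableEq τ] (haa : ∀ t, a t * a t = a t) (t : τ) :
    h.co hee (x t) = Pi.single t (a t) := by
  refine h.unique (h.co_a hee _) (fun t' => ?_) ?_
  · by_cases h1 : t' = t
    · subst h1
      rw [Pi.single_eq_same, haa]
    · rw [Pi.single_eq_of_ne h1, zero_mul]
  · rw [← h.co_sum, h.xe, Finset.sum_eq_single t]
    · rw [Pi.single_eq_same, h.ax]
    · intro t' _ h1
      rw [Pi.single_eq_of_ne h1, map_zero, zero_mul]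
    · exact fun h1 => absurd (Finset.mem_univ t) h1

theorem co_deg (hW : GrAlg W) (hWH : GrAlg WH) (hi : ∀ r h, h ∈ WH r → i h ∈ W r)
    (he : e ∈ W 0) (ha : ∀ t, a t ∈ WH 0) {s : ℚ} {b : B} (hb : b ∈ W s) (t : τ) :
    h.co hee b t ∈ WH (s - r t) := by
  have h1 : h.co hee b = fun t => cpt WH (s - r t) (h.co hee b t) := by
    refine h.unique (h.co_a hee _) (fun t => ?_) ?_
    · rw [← cpt_mul_right hWH (ha t), add_zero, h.co_a]
    · have h2 : b * e = cpt W s (b * e) := by
        have h3 : b * e ∈ W s := by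
          have h4 := hW.mul hb he
          rwa [add_zero] at h4
        rw [cpt_of_mem hW.int h3, if_pos rfl]
      rw [← h.co_sum, h2, h.co_sum hee b, map_sum]
      refine Finset.sum_congr rfl fun t _ => ?_
      have h3 := cpt_mul_right hW (h.deg t) (s - r t) (i (h.co hee b t))
      rw [sub_add_cancel] at h3
      rw [h3]
      congr 1
      exact cpt_map hWH.int hW.int i.toLinearMap hi (s - r t) (h.co hee b t)
  rw [h1]
  exact cpt_mem hWH.int _ _

end HFam

theorem finrank_coind [FiniteDimensional K B] [FiniteDimensional K X] (hW : GrAlg W)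
    (hV : GrMod W V) (hWH : GrAlg WH) (hi : ∀ r h, h ∈ WH r → i h ∈ W r)
    (he : e ∈ W 0) (hee : e * e = e) (ha : ∀ t, a t ∈ WH 0) (haa : ∀ t, a t * a t = a t)
    (h : HFam i W e x r a) (d : ℚ) :
    finrank K ↥(cor1 K (Coind i X) e ⊓ VC i W V d) =
      ∑ t, finrank K ↥(cor1 K X (i (a t)) ⊓ V (r t + d)) := by
  classical
  rw [← Module.finrank_pi_fintype]
  refine LinearEquiv.finrank_eq (LinearEquiv.ofBijective
    (LinearMap.pi fun t => LinearMap.restrict
      ((LinearMap.applyₗ (x t) : (B →ₗ[K] X) →ₗ[K] X) ∘ₗ (Coind.coeLin (i := i) (X := X)))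
      (p := cor1 K (Coind i X) e ⊓ VC i W V d) (q := cor1 K X (i (a t)) ⊓ V (r t + d)) ?_) ?_)
  · rintro f ⟨hf1, hf2⟩
    refine ⟨?_, hf2 _ _ (h.deg t)⟩
    change i (a t) • f (x t) = f (x t)
    rw [← Coind.map_i_mul, h.ax]
  · constructor
    · rw [injective_iff_map_eq_zero]
      rintro ⟨f, hf1, hf2⟩ hf
      apply Subtype.ext
      refine Coind.ext fun b => ?_
      have h1 : ∀ t, f (x t) = 0 := by
        intro t
        have h2 := congrFun hf t
        exact congrArg Subtype.val h2
      have h2 : f b = f (b * e) := by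
        have h3 : e • f = f := hf1
        conv_lhs => rw [← h3]
        rfl
      change f b = 0
      rw [h2, h.co_sum hee b, Coind.map_sum']
      exact Finset.sum_eq_zero fun t _ => by rw [Coind.map_i_mul, h1, smul_zero]
    · intro v
      let fl : B →ₗ[K] X :=
        { toFun := fun b => ∑ t, i (h.co hee b t) • ((v t : ↥(cor1 K X (i (a t)) ⊓ V (r t + d))) : X)
          map_add' := fun b c => by
            rw [h.co_add, ← Finset.sum_add_distrib]
            exact Finset.sum_congr rfl fun t _ => by rw [Pi.add_apply, map_add, add_smul]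
          map_smul' := fun c b => by
            rw [h.co_smul, RingHom.id_apply, Finset.smul_sum]
            exact Finset.sum_congr rfl fun t _ => by rw [Pi.smul_apply, map_smul, smul_assoc] }
      have hfl : ∀ b, fl b = ∑ t, i (h.co hee b t) • (v t : X) := fun _ => rfl
      let f : Coind i X := Coind.mk' fl (by
        intro g b
        rw [hfl, hfl, Finset.smul_sum]
        exact Finset.sum_congr rfl fun t _ => by rw [h.co_mul, map_mul, mul_smul])
      have hf : ∀ b, f b = ∑ t, i (h.co hee b t) • (v t : X) := fun _ => rfl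
      refine ⟨⟨f, ?_, ?_⟩, ?_⟩
      · change e • f = f
        ext b
        rw [Coind.smulB_apply, hf, hf, h.co_e]
      · intro s b hb
        rw [hf]
        refine Submodule.sum_mem _ fun t _ => ?_
        have h1 := hV.smul (hi _ _ (h.co_deg hee hW hWH hi he ha hb t)) (v t).2.2
        have h2 : s - r t + (r t + d) = s + d := by ring
        rwa [h2] at h1
      · funext t
        apply Subtype.ext
        change f (x t) = v t
        rw [hf, h.co_x hee haa, Finset.sum_eq_single t]
        · rw [Pi.single_eq_same]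
          exact (v t).2.1
        · intro t' _ h1
          rw [Pi.single_eq_of_ne h1, map_zero, zero_smul]
        · exact fun h1 => absurd (Finset.mem_univ t) h1

/-- **(O3b)** the graded dimension of `e (Coind X)` -/
theorem gd_cor1_coind [FiniteDimensional K B] [FiniteDimensional K X] (hW : GrAlg W)
    (hV : GrMod W V) (hWH : GrAlg WH) (hi : ∀ r h, h ∈ WH r → i h ∈ W r)
    (he : e ∈ W 0) (hee : e * e = e) (ha : ∀ t, a t ∈ WH 0) (haa : ∀ t, a t * a t = a t)
    (h : HFam i W e x r a) :
    gd (VC i W V) (cor1 K (Coind i X) e) = ∑ t, tq (-(r t)) * gd V (cor1 K X (i (a t))) := by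
  refine coeff_ext fun d => ?_
  rw [coeff_gd (grMod_VC hW hV hWH.int hi).int.submodule_iSupIndep,
    finrank_coind hW hV hWH hi he hee ha haa h d, AddMonoidAlgebra.coeff_sum,
    Finsupp.finsetSum_apply]
  push_cast
  refine Finset.sum_congr rfl fun t _ => ?_
  rw [coeff_tq_mul, coeff_gd hV.int.submodule_iSupIndep, sub_neg_eq_add, add_comm d]

end Vale.Agent.P179.H843
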