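import Vale.Agent.P179.H843.AutoSep
import Vale.Agent.P179.H875.S0cHigman

/-!
# Pieces of END (ALLB): the retraction `ρ`, and the passage from `D × D` to `Γ × Γ`
-/

namespace Vale.Agent.P179.H843

open Module Vale.P179.H445
open scoped BigOperators

section Rho

variable {k A Λ : Type*} [Field k] [Ring A] [Algebra k A] [FiniteDimensional k A]
  [Ring Λ] [Algebra k Λ]

/-- **(E4)** If the form is nondegenerate on `A` there is a bimodule retraction compatible with
the form. -/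
theorem exists_rho (ι : A →ₐ[k] Λ) (τ : Λ →ₗ[k] k) (tc : ∀ a b, τ (a * b) = τ (b * a))
    (hnd : ∀ a : A, (∀ a', τ (ι (a * a')) = 0) → a = 0) :
    ∃ ρ : Λ →ₗ[k] A, (∀ a, ρ (ι a) = a) ∧ (∀ h v, ρ (ι h * v) = h * ρ v) ∧
      (∀ h v, ρ (v * ι h) = ρ v * h) ∧ ∀ v, τ (ι (ρ v)) = τ v := by
  let t : A →ₗ[k] k := τ ∘ₗ ι.toLinearMap
  have ht : ∀ a, t a = τ (ι a) := fun _ => rfl
  let Φ : A →ₗ[k] Module.Dual k A :=
    { toFun := fun z => t ∘ₗ LinearMap.mulLeft k z
      map_add' := by intro a b; ext x; simp [add_mul]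
      map_smul' := by intro a b; ext x; simp }
  have hΦ : ∀ z a, Φ z a = t (z * a) := fun _ _ => rfl
  have hinj : Function.Injective Φ := by
    rw [injective_iff_map_eq_zero]
    intro z hz
    refine hnd z fun y => ?_
    have := congrArg (fun g => g y) hz
    simpa [Φ, ht] using this
  let e : A ≃ₗ[k] Module.Dual k A :=
    LinearEquiv.ofInjectiveOfFinrankEq Φ hinj (by rw [Subspace.dual_finrank_eq])
  have he : ∀ z, e z = Φ z := fun _ => rfl
  let Ψ : Λ →ₗ[k] Module.Dual k A :=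
    { toFun := fun v => τ ∘ₗ LinearMap.mulLeft k v ∘ₗ ι.toLinearMap
      map_add' := by intro a b; ext x; simp [add_mul]
      map_smul' := by intro a b; ext x; simp }
  have hΨ : ∀ v a, Ψ v a = τ (v * ι a) := fun _ _ => rfl
  let ρ : Λ →ₗ[k] A := e.symm.toLinearMap ∘ₗ Ψ
  have key : ∀ v a, τ (ι (ρ v * a)) = τ (v * ι a) := by
    intro v a
    have h1 : Φ (ρ v) = Ψ v := by rw [← he]; exact e.apply_symm_apply (Ψ v)
    rw [← ht, ← hΦ, h1, hΨ]
  have uniq : ∀ x y : A, (∀ a, τ (ι (x * a)) = τ (ι (y * a))) → x = y := by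
    intro x y h
    rw [← sub_eq_zero]
    refine hnd _ fun a => ?_
    rw [sub_mul, map_sub, map_sub, h, sub_self]
  refine ⟨ρ, fun a => uniq _ _ fun b => ?_, fun h v => uniq _ _ fun b => ?_,
    fun h v => uniq _ _ fun b => ?_, fun v => ?_⟩
  · rw [key, map_mul ι]
  · rw [key, mul_assoc, tc, mul_assoc, ← map_mul, ← key, mul_assoc h, map_mul ι h, tc,
      ← map_mul, mul_assoc]
  · rw [key, mul_assoc, ← map_mul, ← key, mul_assoc]
  · have := key v 1
    rwa [mul_one, map_one, mul_one] at this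

end Rho

section Raise

variable {k Λ Γ : Type*} [Field k] [Ring Λ] [Algebra k Λ] [Group Γ] [Fintype Γ]

/-- the representation `(x, y) v = x v y⁻¹` of `Γ × Γ` -/
noncomputable def biU (k : Type*) [Field k] [Algebra k Λ] (u : Γ →* Λ) :
    Γ × Γ →* Module.End k Λ where
  toFun z := LinearMap.mulLeft k (u z.1) ∘ₗ LinearMap.mulRight k (u z.2⁻¹)
  map_one' := by
    ext v
    simp
  map_mul' z w := by
    ext v
    simp only [Prod.fst_mul, Prod.snd_mul, mul_inv_rev, map_mul, LinearMap.comp_apply,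
      LinearMap.mulLeft_apply, LinearMap.mulRight_apply, Module.End.mul_apply]
    simp only [mul_assoc]

omit [Fintype Γ] in
theorem biU_apply (u : Γ →* Λ) (z : Γ × Γ) (v : Λ) : biU k u z v = u z.1 * v * u z.2⁻¹ := by
  show u z.1 * (v * u z.2⁻¹) = _
  rw [mul_assoc]

/-- **(E5)** from a trace over `D × D` to a trace over `Γ × Γ` -/
theorem raise (u : Γ →* Λ) (D : Subgroup Γ) [Fintype D] (φ θ₀ : Λ →ₗ[k] Λ)
    (hl : ∀ g v, φ (u g * v) = u g * φ v) (hr : ∀ g v, φ (v * u g) = φ v * u g)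
    (h : ∀ v, φ v = ∑ z : D × D, u z.1 * θ₀ (u (z.1 : Γ)⁻¹ * v * u z.2) * u (z.2 : Γ)⁻¹)
    (hidx : (D.index : k) ≠ 0) :
    ∃ θ : Λ →ₗ[k] Λ, ∀ v, ∑ x : Γ, ∑ y : Γ, u x * θ (u x⁻¹ * v * u y) * u y⁻¹ = φ v := by
  classical
  let D' : Subgroup (Γ × Γ) := D.prod D
  let eD : D × D ≃ D' :=
    { toFun := fun z => ⟨(z.1, z.2), ⟨z.1.2, z.2.2⟩⟩
      invFun := fun z => (⟨z.1.1, z.2.1⟩, ⟨z.1.2, z.2.2⟩)
      left_inv := fun _ => rfl
      right_inv := fun _ => rfl }
  let _ : Fintype D' := Fintype.ofEquiv _ eD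
  have hD' : (D'.index : k) ≠ 0 := by
    have : D'.index = D.index * D.index := Subgroup.index_prod D D
    rw [this, Nat.cast_mul]
    exact mul_ne_zero hidx hidx
  refine ⟨(D'.index : k)⁻¹ • θ₀, fun v => ?_⟩
  have h1 := Vale.P179.H875.trace_up D' (biU k u) φ θ₀
    (by
      rintro ⟨x, y⟩ v
      rw [biU_apply, biU_apply, hr, hl])
    (by
      intro v
      rw [h v]
      refine Finset.sum_equiv eD (by simp) fun z _ => ?_
      show _ = biU k u ((z.1 : Γ), (z.2 : Γ)) (θ₀ (biU k u ((z.1 : Γ), (z.2 : Γ))⁻¹ v))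
      rw [biU_apply, Prod.inv_mk, biU_apply]
      simp)
    hD' v
  rw [h1, Fintype.sum_prod_type]
  refine Finset.sum_congr rfl fun x _ => Finset.sum_congr rfl fun y _ => ?_
  rw [biU_apply, Prod.inv_mk, biU_apply]
  simp

end Raise

end Vale.Agent.P179.H843
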