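import Vale.Agent.P179.H737.REig
import Vale.Agent.P179.H175.GrDefs

/-!
# REL, module A3rel: letters, and the two pieces CIRC and PPERM of Lemma L

`𝓐` is an algebra with a homomorphism `u : G → 𝓐ˣ`, `Q ≤ G` a `p`-subgroup.  For an `𝓐`-module
`F` the elements `T ∈ II Q Q` act on the fixed points `F^Q`, and `LJ Q` acts as zero.
-/

namespace Vale.Agent.P179.H843.RL

open Module Vale.P179.H175 Vale.P179.H737.R
open scoped BigOperators

section Defs

variable {𝓐 : Type} [Ring 𝓐] {G : Type} [Group G] (u : G →* 𝓐)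

/-- the left ideal generated by the `u q - 1`, `q ∈ Q` -/
def LJ (Q : Subgroup G) : Submodule 𝓐 𝓐 := Submodule.span 𝓐 {a | ∃ q ∈ Q, a = u q - 1}

/-- the relative trace `∑_{x ∈ Q/R} x T` -/
noncomputable def Tr (R Q : Subgroup G) (T : 𝓐) : 𝓐 :=
  ∑ᶠ x : Q ⧸ R.subgroupOf Q, u (x.out : Q) * T

variable (K : Type) [Field K] [Algebra K 𝓐]

/-- the elements of `𝓐` which map `Q`-fixed points to `R`-fixed points -/
def II (R Q : Subgroup G) : Submodule K 𝓐 where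
  carrier := {T | ∀ r ∈ R, (u r - 1) * T ∈ LJ u Q}
  add_mem' := fun h1 h2 r hr => by rw [mul_add]; exact add_mem (h1 r hr) (h2 r hr)
  zero_mem' := fun r _ => by rw [mul_zero]; exact zero_mem _
  smul_mem' := fun c T h r hr => by
    rw [mul_smul_comm, Algebra.smul_def]
    exact (LJ u Q).smul_mem (algebraMap K 𝓐 c) (h r hr)

/-- relative traces from proper subgroups, modulo `LJ Q` -/
def TS (Q : Subgroup G) : Submodule K 𝓐 :=
  Submodule.span K {y | ∃ R < Q, ∃ T ∈ II u K R Q, y = Tr u R Q T} ⊔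
    (LJ u Q).restrictScalars K

/-- the fixed points of `Q` -/
def fx (Q : Subgroup G) (F : Type) [AddCommGroup F] [Module K F] [Module 𝓐 F]
    [IsScalarTower K 𝓐 F] : Submodule K F where
  carrier := {f | ∀ q ∈ Q, u q • f = f}
  add_mem' := fun h1 h2 q hq => by rw [smul_add, h1 q hq, h2 q hq]
  zero_mem' := fun q _ => smul_zero _
  smul_mem' := fun c f h q hq => by rw [smul_algebra_smul_comm, h q hq]

/-- the twisted sums `z_j = ∑_c ζ^{jc} z_c` -/
noncomputable def zz {e : ℕ} [NeZero e] (ζ : K) (z : ZMod e → 𝓐) (j : ZMod e) : 𝓐 :=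
  ∑ c, ζ ^ (j * c).val • z c

end Defs

/-- PIECE CIRC: the circulant identity. -/
def CIRC : Prop := ∀ (p : ℕ) [Fact p.Prime] (K : Type) [Field K] [CharP K p]
  (Q : Type) [CommGroup Q] [Finite Q], IsPGroup p Q → ∀ (σ : MulAut Q) (e : ℕ) [NeZero e],
  σ ^ e = 1 → ∀ ζ : K, IsPrimitiveRoot ζ e →
  ∀ (𝓐 : Type) [Ring 𝓐] [Algebra K 𝓐] (u : Q →* 𝓐) (z : ZMod e → 𝓐),
  (∀ c q, z c * u q = u ((σ ^ c.val) q) * z c) → (∀ c, ∑ a, z a * z (c - a) = z c) →
  ∀ (F : Type) [AddCommGroup F] [Module K F] [Module 𝓐 F] [IsScalarTower K 𝓐 F]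
  [FiniteDimensional K F] (U : Submodule K F), (∀ (a : 𝓐), ∀ f ∈ U, a • f ∈ U) →
  ∀ (h : F →ₗ[K] F), (∀ f ∈ U, h f ∈ U) → (∀ f ∈ U, ∑ᶠ q : Q, u q • h (u q⁻¹ • f) = f) →
  ∀ j : ZMod e, finrank K ↥(cor1 K F (zz K ζ z j) ⊓ U) =
    ∑ i : ZMod e, finrank K ((Vale.P179.H190.alE K σ).eigenspace (ζ ^ i.val)) *
      finrank K ↥(cor1 K F (zz K ζ z (j - i)) ⊓ fx u K ⊤ F ⊓ U)

/-- PIECE PPERM: `Q`-fixed elements of `L/LJ Q` for an algebra with a `G × G`-stable basis. -/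
def PPERM : Prop := ∀ (K : Type) [Field K] (L : Type) [Ring L] [Algebra K L] (G : Type)
  [CommGroup G] [Finite G] (u : G →* L) (I : Type) [Finite I] (b : Basis I K L),
  (∀ x y i, ∃ j, u x * b i * u y = b j) → (∀ i y, b i * u y = b i → y = 1) →
  ∀ (Q : Subgroup G) (T : L), T ∈ II u K Q Q →
  T ∈ Submodule.span K {a | ∃ i, a = b i ∧ ∀ q ∈ Q, ∃ q' ∈ Q, u q * b i = b i * u q'} ⊔
    TS u K Q

end Vale.Agent.P179.H843.RL
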